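import Mathlib

namespace Vale.Agent.Lib.P344

/-- A gate of a linear circuit over the complex numbers. The computed values are kept in a
list: first the inputs `x 0, ..., x (n-1)` (positions `0, ..., n-1`), then the constant `0`
(position `n`), then the values of the gates, in order. The gate `add i j` computes `u + v`,
`sub i j` computes `u - v` and `smul c i` computes `c * u`, where `u` and `v` are the values at
positions `i` and `j` of the list computed so far (a position outside that list reads as the
constant `0`). -/
inductive Gate : Type
  | add (i j : ℕ) : Gate
  | sub (i j : ℕ) : Gate
  | smul (c : ℂ) (i : ℕ) : Gate

/-- Append the value of one more gate to the list of computed values. -/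
def step (vals : List ℂ) : Gate → List ℂ
  | Gate.add i j => vals ++ [vals.getD i 0 + vals.getD j 0]
  | Gate.sub i j => vals ++ [vals.getD i 0 - vals.getD j 0]
  | Gate.smul c i => vals ++ [c * vals.getD i 0]

/-- The list of all values computed by the circuit `C` (a list of gates) on the input `x`:
the inputs, the constant `0`, and then one value for each gate. -/
def eval {n : ℕ} (C : List Gate) (x : Fin n → ℂ) : List ℂ :=
  C.foldl step (List.ofFn x ++ [0])

end Vale.Agent.Lib.P344
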