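import Mathlib
import Vale.Agent.Lib.P344.Defs

namespace Vale.Agent.Lib.P344

open Finset

/-! ### Generic runs of a circuit over a complex vector space -/

section Generic

variable {M : Type*} [AddCommGroup M] [Module ℂ M]

/-- Generic version of `step`. -/
def stepM (vals : List M) : Gate → List M
  | Gate.add i j => vals ++ [vals.getD i 0 + vals.getD j 0]
  | Gate.sub i j => vals ++ [vals.getD i 0 - vals.getD j 0]
  | Gate.smul c i => vals ++ [c • vals.getD i 0]

/-- Generic run. -/
def runM (start : List M) (C : List Gate) : List M := C.foldl stepM start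

theorem runM_nil (start : List M) : runM start [] = start := rfl

theorem runM_concat (start : List M) (C : List Gate) (g : Gate) :
    runM start (C ++ [g]) = stepM (runM start C) g := by
  simp [runM, List.foldl_append]

theorem length_stepM (vals : List M) (g : Gate) : (stepM vals g).length = vals.length + 1 := by
  cases g <;> simp [stepM]

theorem length_runM (start : List M) (C : List Gate) :
    (runM start C).length = start.length + C.length := by
  induction C using List.reverseRecOn with
  | nil => simp [runM]
  | append_singleton C g ih => rw [runM_concat, length_stepM, ih]; simp; ring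

theorem getD_concat {α : Type*} (l : List α) (x d : α) (i : ℕ) :
    (l ++ [x]).getD i d = if i = l.length then x else l.getD i d := by
  rcases lt_trichotomy i l.length with h | h | h
  · rw [List.getD_append _ _ _ _ h, if_neg (ne_of_lt h)]
  · subst h
    rw [List.getD_append_right _ _ _ _ le_rfl]
    simp
  · rw [if_neg (ne_of_gt h), List.getD_eq_default _ _ (by simp; omega),
      List.getD_eq_default _ _ (le_of_lt h)]

variable {M' : Type*} [AddCommGroup M'] [Module ℂ M']

theorem map_stepM (f : M →ₗ[ℂ] M') (vals : List M) (g : Gate) :
    (stepM vals g).map f = stepM (vals.map f) g := by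
  have h : ∀ i, (vals.map f).getD i 0 = f (vals.getD i 0) := by
    intro i
    have := List.getD_map vals 0 (n := i) f
    rwa [map_zero] at this
  cases g <;>
    simp only [stepM, List.map_append, List.map_cons, List.map_nil, map_add, map_sub, map_smul, h]

theorem map_runM (f : M →ₗ[ℂ] M') (start : List M) (C : List Gate) :
    (runM start C).map f = runM (start.map f) C := by
  induction C using List.reverseRecOn with
  | nil => simp [runM]
  | append_singleton C g ih => rw [runM_concat, runM_concat, map_stepM, ih]

end Generic

theorem step_eq_stepM (vals : List ℂ) (g : Gate) : step vals g = stepM vals g := by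
  cases g <;> simp [step, stepM]

theorem eval_eq_runM {n : ℕ} (C : List Gate) (x : Fin n → ℂ) :
    eval C x = runM (List.ofFn x ++ [0]) C := by
  unfold eval runM
  have : step = (stepM : List ℂ → Gate → List ℂ) := by
    funext vals g
    exact step_eq_stepM vals g
  rw [this]

/-! ### The symbolic run: coefficient vectors -/

/-- The list of coefficient vectors of all computed values. -/
noncomputable def vecs (n : ℕ) (C : List Gate) : List (Fin n → ℂ) :=
  runM (List.ofFn (fun k : Fin n => (Pi.single k 1 : Fin n → ℂ)) ++ [0]) C

/-- The coefficient vector of the value at position `i`. -/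
noncomputable def vec (n : ℕ) (C : List Gate) (i : ℕ) : Fin n → ℂ := (vecs n C).getD i 0

theorem length_vecs (n : ℕ) (C : List Gate) : (vecs n C).length = n + 1 + C.length := by
  simp [vecs, length_runM]

theorem vec_eval (n : ℕ) (C : List Gate) (i : ℕ) (k : Fin n) :
    vec n C i k = (eval C (Pi.single k 1 : Fin n → ℂ)).getD i 0 := by
  have h1 := map_runM (LinearMap.proj k : (Fin n → ℂ) →ₗ[ℂ] ℂ)
    (List.ofFn (fun k : Fin n => (Pi.single k 1 : Fin n → ℂ)) ++ [0]) C
  have h2 : (List.ofFn (fun k : Fin n => (Pi.single k 1 : Fin n → ℂ)) ++ [0]).map
      (LinearMap.proj k : (Fin n → ℂ) →ₗ[ℂ] ℂ) = List.ofFn (Pi.single k 1 : Fin n → ℂ) ++ [0] := by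
    simp only [List.map_append, List.map_ofFn, List.map_cons, List.map_nil, map_zero]
    congr 2
    funext l
    simp [Pi.single_apply, eq_comm]
  rw [h2] at h1
  rw [eval_eq_runM, ← h1]
  have h3 := List.getD_map (vecs n C) 0 (n := i) (LinearMap.proj k : (Fin n → ℂ) →ₗ[ℂ] ℂ)
  rw [map_zero] at h3
  unfold vec
  rw [vecs] at h3 ⊢
  rw [h3]
  rfl

theorem vec_concat (n : ℕ) (C : List Gate) (g : Gate) (i : ℕ) :
    vec n (C ++ [g]) i = if i = n + 1 + C.length then
      (match g with
        | Gate.add a b => vec n C a + vec n C b
        | Gate.sub a b => vec n C a - vec n C b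
        | Gate.smul c a => c • vec n C a)
      else vec n C i := by
  unfold vec
  rw [vecs, runM_concat, ← vecs]
  cases g <;> simp only [stepM] <;> rw [getD_concat, length_vecs]

theorem vec_nil (n : ℕ) (i : ℕ) :
    vec n [] i = if h : i < n then (Pi.single (⟨i, h⟩ : Fin n) 1 : Fin n → ℂ) else 0 := by
  unfold vec vecs
  rw [runM_nil]
  split_ifs with h
  · rw [List.getD_append _ _ _ _ (by simpa using h)]
    rw [List.getD_eq_getElem _ _ (by simpa using h)]
    simp
  · rcases Nat.lt_or_ge n i with h' | h'
    · rw [List.getD_eq_default _ _ (by simp; omega)]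
    · have : i = n := by omega
      subst this
      rw [List.getD_append_right _ _ _ _ (by simp)]
      simp

theorem vec_of_ge (n : ℕ) (C : List Gate) (i : ℕ) (h : n + 1 + C.length ≤ i) : vec n C i = 0 := by
  unfold vec
  exact List.getD_eq_default _ _ (by rw [length_vecs]; exact h)

theorem vec_input (n : ℕ) (C : List Gate) (k : Fin n) :
    vec n C k = (Pi.single k 1 : Fin n → ℂ) := by
  induction C using List.reverseRecOn with
  | nil => rw [vec_nil]; simp
  | append_singleton C g ih =>
    rw [vec_concat, if_neg (by have := k.isLt; omega), ih]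

end Vale.Agent.Lib.P344
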