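import Mathlib
import Vale.Agent.Lib.P344.Sym

namespace Vale.Agent.Lib.P344

open Finset Polynomial

/-- The primitive `n`-th root of unity `exp (2 π i / n)`. -/
noncomputable def zeta (n : ℕ) : ℂ := Complex.exp (2 * Real.pi * Complex.I / n)

/-- Row `j` of the Fourier matrix. -/
noncomputable def row (n : ℕ) (j : Fin n) : Fin n → ℂ := fun k => zeta n ^ ((j : ℕ) * (k : ℕ))

theorem vec_out (n : ℕ) (C : List Gate) (out : Fin n → ℕ)
    (hC : ∀ x : Fin n → ℂ, ∀ j : Fin n, (eval C x).getD (out j) 0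
        = ∑ k : Fin n, Complex.exp (2 * Real.pi * Complex.I / n) ^ ((j : ℕ) * (k : ℕ)) * x k)
    (j : Fin n) : vec n C (out j) = row n j := by
  funext k
  rw [vec_eval, hC]
  simp [row, zeta, Pi.single_apply]

/-- Scalar gates. -/
def Gate.isSmul : Gate → Bool
  | Gate.smul _ _ => true
  | _ => false

theorem exists_gens (n : ℕ) (C : List Gate) :
    ∃ G : Finset (Fin n → ℂ), G.card ≤ n + C.countP Gate.isSmul ∧
      ∀ i, vec n C i ∈ Submodule.span ℚ (G : Set (Fin n → ℂ)) := by
  induction C using List.reverseRecOn with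
  | nil =>
    refine ⟨Finset.univ.image (fun k : Fin n => (Pi.single k 1 : Fin n → ℂ)), ?_, ?_⟩
    · simpa using Finset.card_image_le (s := Finset.univ)
        (f := fun k : Fin n => (Pi.single k 1 : Fin n → ℂ))
    · intro i
      rw [vec_nil]
      split_ifs with h
      · exact Submodule.subset_span (by simp)
      · exact Submodule.zero_mem _
  | append_singleton C g ih =>
    obtain ⟨G, hG, hmem⟩ := ih
    cases g with
    | add a b =>
      refine ⟨G, by simpa [List.countP_append, Gate.isSmul] using hG, ?_⟩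
      intro i
      rw [vec_concat]
      split_ifs
      · exact Submodule.add_mem _ (hmem a) (hmem b)
      · exact hmem i
    | sub a b =>
      refine ⟨G, by simpa [List.countP_append, Gate.isSmul] using hG, ?_⟩
      intro i
      rw [vec_concat]
      split_ifs
      · exact Submodule.sub_mem _ (hmem a) (hmem b)
      · exact hmem i
    | smul c a =>
      refine ⟨insert (c • vec n C a) G, ?_, ?_⟩
      · have := Finset.card_insert_le (c • vec n C a) G
        simp [List.countP_append, Gate.isSmul]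
        omega
      · intro i
        rw [vec_concat]
        split_ifs
        · exact Submodule.subset_span (by simp)
        · exact Submodule.span_mono (by simp) (hmem i)

theorem row_linearIndependent (n : ℕ) (hn : 0 < n) : LinearIndependent ℂ (row n) := by
  have hζ : IsPrimitiveRoot (zeta n) n := Complex.isPrimitiveRoot_exp n hn.ne'
  have hdet : (Matrix.vandermonde (fun j : Fin n => zeta n ^ (j : ℕ))).det ≠ 0 := by
    rw [Matrix.det_vandermonde_ne_zero_iff]
    intro i j hij
    exact Fin.ext (hζ.pow_inj i.isLt j.isLt hij)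
  have h := Matrix.linearIndependent_rows_of_det_ne_zero hdet
  have h2 : row n = fun i => Matrix.vandermonde (fun j : Fin n => zeta n ^ (j : ℕ)) i := by
    funext i k
    simp [row, Matrix.vandermonde_apply, pow_mul]
  rw [h2]
  exact h

theorem ker_lemma (n : ℕ) (hn : 0 < n) (q c : Fin n → ℚ)
    (h : ∀ k : Fin n, (q k : ℂ) + ∑ j : Fin n, (c j : ℂ) * zeta n ^ ((j : ℕ) * (k : ℕ)) = 0)
    (hq : ∀ d ∈ Nat.divisors n, q ⟨(n / d) % n, Nat.mod_lt _ hn⟩ = 0) :
    q = 0 ∧ c = 0 := by
  have hζ : IsPrimitiveRoot (zeta n) n := Complex.isPrimitiveRoot_exp n hn.ne'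
  set ζ := zeta n with hζdef
  set P : ℚ[X] := ∑ j : Fin n, Polynomial.C (c j) * Polynomial.X ^ (j : ℕ) with hPdef
  have hP : ∀ m : ℕ, Polynomial.aeval (ζ ^ m) P = ∑ j : Fin n, (c j : ℂ) * ζ ^ ((j : ℕ) * m) := by
    intro m
    simp only [hPdef, map_sum, map_mul, Polynomial.aeval_C, map_pow, Polynomial.aeval_X,
      eq_ratCast]
    refine Finset.sum_congr rfl (fun j _ => ?_)
    rw [← pow_mul, mul_comm m]
  -- Step 1
  have h1 : ∀ k : Fin n, Polynomial.aeval (ζ ^ (k : ℕ)) P = 0 := by
    intro k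
    set g := Nat.gcd n k with hg
    have hgn : g ∣ n := Nat.gcd_dvd_left n k
    have hgk : g ∣ (k : ℕ) := Nat.gcd_dvd_right n k
    have hgpos : 0 < g := Nat.gcd_pos_of_pos_left _ hn
    have hd : n / g ∈ Nat.divisors n := by
      rw [Nat.mem_divisors]
      exact ⟨Nat.div_dvd_of_dvd hgn, hn.ne'⟩
    have hq1 := hq (n / g) hd
    have hdd : n / (n / g) = g := Nat.div_div_self hgn hn.ne'
    have h2 := h ⟨(n / (n / g)) % n, Nat.mod_lt _ hn⟩
    rw [hq1] at h2
    simp only [Rat.cast_zero, zero_add, hdd] at h2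
    have key : ζ ^ (g % n) = ζ ^ g := by
      have := pow_mod_orderOf ζ g
      rwa [← hζ.eq_orderOf] at this
    have h3 : Polynomial.aeval (ζ ^ g) P = 0 := by
      rw [hP, ← h2]
      refine Finset.sum_congr rfl (fun j _ => ?_)
      rw [mul_comm (j : ℕ) g, pow_mul, mul_comm (j : ℕ) (g % n), pow_mul, key]
    have hμ1 : IsPrimitiveRoot (ζ ^ g) (n / g) := hζ.pow_of_dvd hgpos.ne' hgn
    have hcop : Nat.Coprime ((k : ℕ) / g) (n / g) := by
      have := Nat.coprime_div_gcd_div_gcd (m := n) (n := k) hgpos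
      exact this.symm
    have hμ2 : IsPrimitiveRoot (ζ ^ (k : ℕ)) (n / g) := by
      have := hμ1.pow_of_coprime ((k : ℕ) / g) hcop
      rwa [← pow_mul, Nat.mul_div_cancel' hgk] at this
    have hdpos : 0 < n / g := Nat.div_pos (Nat.le_of_dvd hn hgn) hgpos
    have e1 := Polynomial.cyclotomic_eq_minpoly_rat hμ1 hdpos
    have e2 := Polynomial.cyclotomic_eq_minpoly_rat hμ2 hdpos
    have hdvd : minpoly ℚ (ζ ^ (k : ℕ)) ∣ P := by
      rw [← e2, e1]
      exact minpoly.dvd ℚ _ h3
    obtain ⟨R, hR⟩ := hdvd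
    rw [hR, map_mul, minpoly.aeval, zero_mul]
  -- Step 2
  have h2 : ∀ k : Fin n, q k = 0 := by
    intro k
    have := h k
    rw [← hP, h1 k, add_zero] at this
    exact_mod_cast this
  refine ⟨funext h2, ?_⟩
  -- Step 3
  have h3 : ∑ j : Fin n, (c j : ℂ) • row n j = 0 := by
    funext k
    have := h k
    rw [h2 k] at this
    simp only [Rat.cast_zero, zero_add] at this
    simp only [Finset.sum_apply, Pi.smul_apply, smul_eq_mul, Pi.zero_apply, row]
    exact this
  have h4 := (Fintype.linearIndependent_iff.mp (row_linearIndependent n hn)) (fun j => (c j : ℂ)) h3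
  funext j
  exact_mod_cast h4 j

theorem finrank_bound (n : ℕ) (hn : 0 < n) (G : Finset (Fin n → ℂ))
    (he : ∀ k : Fin n, (Pi.single k 1 : Fin n → ℂ) ∈ Submodule.span ℚ (G : Set (Fin n → ℂ)))
    (hr : ∀ j : Fin n, row n j ∈ Submodule.span ℚ (G : Set (Fin n → ℂ))) :
    2 * n ≤ G.card + (Nat.divisors n).card := by
  classical
  let ψ : (Fin n → ℚ) →ₗ[ℚ] (Fin n → ℂ) :=
    Fintype.linearCombination ℚ (fun k : Fin n => (Pi.single k 1 : Fin n → ℂ))
  let ρ : (Fin n → ℚ) →ₗ[ℚ] (Fin n → ℂ) := Fintype.linearCombination ℚ (row n)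
  let Ψ := ψ.coprod ρ
  have hrange : LinearMap.range Ψ ≤ Submodule.span ℚ (G : Set (Fin n → ℂ)) := by
    rintro _ ⟨z, rfl⟩
    simp only [Ψ, LinearMap.coprod_apply, ψ, ρ, Fintype.linearCombination_apply]
    exact Submodule.add_mem _ (Submodule.sum_mem _ fun k _ => Submodule.smul_mem _ _ (he k))
      (Submodule.sum_mem _ fun j _ => Submodule.smul_mem _ _ (hr j))
  have h1 : Module.finrank ℚ (LinearMap.range Ψ) ≤ G.card :=
    (Submodule.finrank_mono hrange).trans (finrank_span_finset_le_card G)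
  have h2 := LinearMap.finrank_range_add_finrank_ker Ψ
  have h3 : Module.finrank ℚ ((Fin n → ℚ) × (Fin n → ℚ)) = n + n := by
    rw [Module.finrank_prod, Module.finrank_fin_fun]
  let θ : LinearMap.ker Ψ →ₗ[ℚ] (↥(Nat.divisors n) → ℚ) :=
    LinearMap.pi (fun d => (LinearMap.proj (⟨(n / d.1) % n, Nat.mod_lt _ hn⟩ : Fin n)) ∘ₗ
      (LinearMap.fst ℚ (Fin n → ℚ) (Fin n → ℚ)) ∘ₗ (LinearMap.ker Ψ).subtype)
  have hθ : Function.Injective θ := by
    rw [← LinearMap.ker_eq_bot, LinearMap.ker_eq_bot']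
    intro z hz
    obtain ⟨⟨q, c⟩, hzk⟩ := z
    have hΨ : ψ q + ρ c = 0 := by simpa [Ψ] using hzk
    have key := ker_lemma n hn q c ?_ ?_
    · apply Subtype.ext
      simp [key.1, key.2]
    · intro k
      have := congrFun hΨ k
      simpa [ψ, ρ, Fintype.linearCombination_apply, row, Pi.single_apply, Rat.smul_def] using this
    · intro d hd
      have := congrFun hz ⟨d, hd⟩
      simpa [θ] using this
  have h4 : Module.finrank ℚ (LinearMap.ker Ψ) ≤ (Nat.divisors n).card := by
    have := LinearMap.finrank_le_finrank_of_injective hθ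
    rwa [Module.finrank_fintype_fun_eq_card, Fintype.card_coe] at this
  omega

theorem smul_count_bound (n : ℕ) (hn : 0 < n) (C : List Gate) (out : Fin n → ℕ)
    (hC : ∀ x : Fin n → ℂ, ∀ j : Fin n, (eval C x).getD (out j) 0
        = ∑ k : Fin n, Complex.exp (2 * Real.pi * Complex.I / n) ^ ((j : ℕ) * (k : ℕ)) * x k) :
    n ≤ C.countP Gate.isSmul + (Nat.divisors n).card := by
  obtain ⟨G, hG, hmem⟩ := exists_gens n C
  have := finrank_bound n hn G (fun k => by rw [← vec_input n C k]; exact hmem k)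
    (fun j => by rw [← vec_out n C out hC j]; exact hmem _)
  omega

end Vale.Agent.Lib.P344
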