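import Mathlib
import Vale.Agent.Lib.P344.Scalar

namespace Vale.Agent.Lib.P344

open Finset

/-- Addition and subtraction gates. -/
def Gate.isAddSub : Gate → Bool
  | Gate.smul _ _ => false
  | _ => true

/-- One step of the ancestry bookkeeping: the new position gets the set of positions of the
addition and subtraction gates it depends on (itself included when it is such a gate). -/
def ancStep (as : List (Finset ℕ)) : Gate → List (Finset ℕ)
  | Gate.add i j => as ++ [insert as.length (as.getD i ∅ ∪ as.getD j ∅)]
  | Gate.sub i j => as ++ [insert as.length (as.getD i ∅ ∪ as.getD j ∅)]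
  | Gate.smul _ i => as ++ [as.getD i ∅]

def ancs (n : ℕ) (C : List Gate) : List (Finset ℕ) :=
  C.foldl ancStep (List.replicate (n + 1) ∅)

def anc (n : ℕ) (C : List Gate) (i : ℕ) : Finset ℕ := (ancs n C).getD i ∅

theorem ancs_concat (n : ℕ) (C : List Gate) (g : Gate) :
    ancs n (C ++ [g]) = ancStep (ancs n C) g := by
  simp [ancs, List.foldl_append]

theorem length_ancs (n : ℕ) (C : List Gate) : (ancs n C).length = n + 1 + C.length := by
  induction C using List.reverseRecOn with
  | nil => simp [ancs]
  | append_singleton C g ih =>
    rw [ancs_concat]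
    cases g <;> simp [ancStep, ih] <;> omega

theorem anc_nil (n : ℕ) (i : ℕ) : anc n [] i = ∅ := by
  unfold anc ancs
  rcases Nat.lt_or_ge i (n + 1) with h | h
  · rw [List.foldl_nil, List.getD_eq_getElem _ _ (by simpa using h)]
    simp
  · rw [List.foldl_nil, List.getD_eq_default _ _ (by simpa using h)]

theorem anc_concat (n : ℕ) (C : List Gate) (g : Gate) (i : ℕ) :
    anc n (C ++ [g]) i = if i = n + 1 + C.length then
      (match g with
        | Gate.add a b => insert (n + 1 + C.length) (anc n C a ∪ anc n C b)
        | Gate.sub a b => insert (n + 1 + C.length) (anc n C a ∪ anc n C b)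
        | Gate.smul _ a => anc n C a)
      else anc n C i := by
  unfold anc
  rw [ancs_concat]
  cases g <;> simp only [ancStep] <;> rw [getD_concat, length_ancs]

theorem anc_le (n : ℕ) (C : List Gate) :
    ∀ i m, m ∈ anc n C i → m ≤ i ∧ i < n + 1 + C.length := by
  induction C using List.reverseRecOn with
  | nil =>
    intro i m h
    simp [anc_nil] at h
  | append_singleton C g ih =>
    intro i m h
    rw [anc_concat] at h
    simp only [List.length_append, List.length_singleton]
    split_ifs at h with hi
    · cases g with
      | add a b =>
        simp only [Finset.mem_insert, Finset.mem_union] at h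
        rcases h with h | h | h
        · omega
        · have := ih a m h
          omega
        · have := ih b m h
          omega
      | sub a b =>
        simp only [Finset.mem_insert, Finset.mem_union] at h
        rcases h with h | h | h
        · omega
        · have := ih a m h
          omega
        · have := ih b m h
          omega
      | smul c a =>
        have := ih a m h
        omega
    · have := ih i m h
      omega

theorem exists_anc_bound (n : ℕ) (C : List Gate) :
    ∃ U : Finset ℕ, U.card ≤ C.countP Gate.isAddSub ∧ ∀ i, anc n C i ⊆ U := by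
  induction C using List.reverseRecOn with
  | nil => exact ⟨∅, by simp, fun i => by simp [anc_nil]⟩
  | append_singleton C g ih =>
    obtain ⟨U, hU, hsub⟩ := ih
    cases g with
    | add a b =>
      refine ⟨insert (n + 1 + C.length) U, ?_, ?_⟩
      · have := Finset.card_insert_le (n + 1 + C.length) U
        simp [List.countP_append, Gate.isAddSub]
        omega
      · intro i
        rw [anc_concat]
        split_ifs
        · exact Finset.insert_subset_insert _ (Finset.union_subset (hsub a) (hsub b))
        · exact (hsub i).trans (Finset.subset_insert _ _)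
    | sub a b =>
      refine ⟨insert (n + 1 + C.length) U, ?_, ?_⟩
      · have := Finset.card_insert_le (n + 1 + C.length) U
        simp [List.countP_append, Gate.isAddSub]
        omega
      · intro i
        rw [anc_concat]
        split_ifs
        · exact Finset.insert_subset_insert _ (Finset.union_subset (hsub a) (hsub b))
        · exact (hsub i).trans (Finset.subset_insert _ _)
    | smul c a =>
      refine ⟨U, by simpa [List.countP_append, Gate.isAddSub] using hU, ?_⟩
      intro i
      rw [anc_concat]
      split_ifs
      · exact hsub a
      · exact hsub i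

/-- The support of a coefficient vector. -/
noncomputable def supp {n : ℕ} (v : Fin n → ℂ) : Finset (Fin n) :=
  Finset.univ.filter (fun k => v k ≠ 0)

theorem mem_supp {n : ℕ} (v : Fin n → ℂ) (k : Fin n) : k ∈ supp v ↔ v k ≠ 0 := by
  simp [supp]

theorem supp_add {n : ℕ} (u v : Fin n → ℂ) : supp (u + v) ⊆ supp u ∪ supp v := by
  intro k hk
  rw [Finset.mem_union, mem_supp, mem_supp]
  rw [mem_supp] at hk
  by_contra h
  rw [not_or, not_not, not_not] at h
  exact hk (by simp [h.1, h.2])

theorem supp_sub {n : ℕ} (u v : Fin n → ℂ) : supp (u - v) ⊆ supp u ∪ supp v := by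
  intro k hk
  rw [Finset.mem_union, mem_supp, mem_supp]
  rw [mem_supp] at hk
  by_contra h
  rw [not_or, not_not, not_not] at h
  exact hk (by simp [h.1, h.2])

theorem supp_smul {n : ℕ} (c : ℂ) (v : Fin n → ℂ) : supp (c • v) ⊆ supp v := by
  intro k hk
  rw [mem_supp] at hk ⊢
  intro h
  exact hk (by simp [h])

theorem supp_smul_of_ne_zero {n : ℕ} {c : ℂ} (hc : c ≠ 0) (v : Fin n → ℂ) :
    supp (c • v) = supp v := by
  ext k
  rw [mem_supp, mem_supp]
  simp [hc]

theorem supp_zero {n : ℕ} : supp (0 : Fin n → ℂ) = ∅ := by
  ext k
  simp [mem_supp]

theorem card_supp_nil (n : ℕ) (i : ℕ) : (supp (vec n [] i)).card ≤ 1 := by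
  rw [vec_nil]
  split_ifs with h
  · apply (Finset.card_le_card (t := {⟨i, h⟩}) ?_).trans (by simp)
    intro k hk
    rw [mem_supp] at hk
    rw [Finset.mem_singleton]
    by_contra hne
    exact hk (by simp [hne])
  · simp [supp_zero]

theorem supp_anc_bound (n : ℕ) (C : List Gate) : ∀ T : Finset ℕ,
    (T.biUnion (fun i => supp (vec n C i))).card ≤ (T.biUnion (anc n C)).card + T.card := by
  induction C using List.reverseRecOn with
  | nil =>
    intro T
    calc (T.biUnion (fun i => supp (vec n [] i))).card
        ≤ ∑ i ∈ T, (supp (vec n [] i)).card := Finset.card_biUnion_le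
      _ ≤ ∑ i ∈ T, 1 := Finset.sum_le_sum (fun i _ => card_supp_nil n i)
      _ = T.card := by simp
      _ ≤ _ := Nat.le_add_left _ _
  | append_singleton C g ih =>
    intro T
    have hvec : ∀ i, i ≠ n + 1 + C.length → vec n (C ++ [g]) i = vec n C i :=
      fun i hi => by rw [vec_concat, if_neg hi]
    have hanc : ∀ i, i ≠ n + 1 + C.length → anc n (C ++ [g]) i = anc n C i :=
      fun i hi => by rw [anc_concat, if_neg hi]
    by_cases hNT : n + 1 + C.length ∈ T
    · have hTcard : T.card = (T.erase (n + 1 + C.length)).card + 1 :=
        (Finset.card_erase_add_one hNT).symm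
      have hNnot : ∀ T' : Finset ℕ, n + 1 + C.length ∉ T'.biUnion (anc n C) := by
        intro T' h
        rw [Finset.mem_biUnion] at h
        obtain ⟨i, _, hi⟩ := h
        have := anc_le n C i _ hi
        omega
      cases g with
      | add a b =>
        have hT'card : (insert a (insert b (T.erase (n + 1 + C.length)))).card
            ≤ (T.erase (n + 1 + C.length)).card + 2 := by
          have h1 := Finset.card_insert_le a (insert b (T.erase (n + 1 + C.length)))
          have h2 := Finset.card_insert_le b (T.erase (n + 1 + C.length))
          omega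
        have hs : T.biUnion (fun i => supp (vec n (C ++ [Gate.add a b]) i)) ⊆
            (insert a (insert b (T.erase (n + 1 + C.length)))).biUnion
              (fun i => supp (vec n C i)) := by
          intro k hk
          rw [Finset.mem_biUnion] at hk ⊢
          obtain ⟨i, hiT, hik⟩ := hk
          by_cases hiN : i = n + 1 + C.length
          · rw [vec_concat, if_pos hiN] at hik
            rcases Finset.mem_union.mp (supp_add _ _ hik) with h | h
            · exact ⟨a, by simp, h⟩
            · exact ⟨b, by simp, h⟩
          · rw [hvec i hiN] at hik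
            exact ⟨i, by simp [hiN, hiT], hik⟩
        have ha : insert (n + 1 + C.length)
            ((insert a (insert b (T.erase (n + 1 + C.length)))).biUnion (anc n C)) ⊆
            T.biUnion (anc n (C ++ [Gate.add a b])) := by
          intro m hm
          rw [Finset.mem_insert] at hm
          rw [Finset.mem_biUnion]
          rcases hm with hm | hm
          · exact ⟨n + 1 + C.length, hNT, by rw [anc_concat, if_pos rfl]; simp [hm]⟩
          · rw [Finset.mem_biUnion] at hm
            obtain ⟨i, hi, him⟩ := hm
            simp only [Finset.mem_insert] at hi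
            rcases hi with hi | hi | hi
            · exact ⟨n + 1 + C.length, hNT, by rw [anc_concat, if_pos rfl]; simp [← hi, him]⟩
            · exact ⟨n + 1 + C.length, hNT, by rw [anc_concat, if_pos rfl]; simp [← hi, him]⟩
            · have hiN : i ≠ n + 1 + C.length := (Finset.mem_erase.mp hi).1
              exact ⟨i, (Finset.mem_erase.mp hi).2, by rw [hanc i hiN]; exact him⟩
        have h1 := Finset.card_le_card hs
        have h2 := ih (insert a (insert b (T.erase (n + 1 + C.length))))
        have h3 := Finset.card_le_card ha
        rw [Finset.card_insert_of_notMem (hNnot _)] at h3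
        omega
      | sub a b =>
        have hT'card : (insert a (insert b (T.erase (n + 1 + C.length)))).card
            ≤ (T.erase (n + 1 + C.length)).card + 2 := by
          have h1 := Finset.card_insert_le a (insert b (T.erase (n + 1 + C.length)))
          have h2 := Finset.card_insert_le b (T.erase (n + 1 + C.length))
          omega
        have hs : T.biUnion (fun i => supp (vec n (C ++ [Gate.sub a b]) i)) ⊆
            (insert a (insert b (T.erase (n + 1 + C.length)))).biUnion
              (fun i => supp (vec n C i)) := by
          intro k hk
          rw [Finset.mem_biUnion] at hk ⊢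
          obtain ⟨i, hiT, hik⟩ := hk
          by_cases hiN : i = n + 1 + C.length
          · rw [vec_concat, if_pos hiN] at hik
            rcases Finset.mem_union.mp (supp_sub _ _ hik) with h | h
            · exact ⟨a, by simp, h⟩
            · exact ⟨b, by simp, h⟩
          · rw [hvec i hiN] at hik
            exact ⟨i, by simp [hiN, hiT], hik⟩
        have ha : insert (n + 1 + C.length)
            ((insert a (insert b (T.erase (n + 1 + C.length)))).biUnion (anc n C)) ⊆
            T.biUnion (anc n (C ++ [Gate.sub a b])) := by
          intro m hm
          rw [Finset.mem_insert] at hm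
          rw [Finset.mem_biUnion]
          rcases hm with hm | hm
          · exact ⟨n + 1 + C.length, hNT, by rw [anc_concat, if_pos rfl]; simp [hm]⟩
          · rw [Finset.mem_biUnion] at hm
            obtain ⟨i, hi, him⟩ := hm
            simp only [Finset.mem_insert] at hi
            rcases hi with hi | hi | hi
            · exact ⟨n + 1 + C.length, hNT, by rw [anc_concat, if_pos rfl]; simp [← hi, him]⟩
            · exact ⟨n + 1 + C.length, hNT, by rw [anc_concat, if_pos rfl]; simp [← hi, him]⟩
            · have hiN : i ≠ n + 1 + C.length := (Finset.mem_erase.mp hi).1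
              exact ⟨i, (Finset.mem_erase.mp hi).2, by rw [hanc i hiN]; exact him⟩
        have h1 := Finset.card_le_card hs
        have h2 := ih (insert a (insert b (T.erase (n + 1 + C.length))))
        have h3 := Finset.card_le_card ha
        rw [Finset.card_insert_of_notMem (hNnot _)] at h3
        omega
      | smul c a =>
        have hT'card : (insert a (T.erase (n + 1 + C.length))).card
            ≤ (T.erase (n + 1 + C.length)).card + 1 := Finset.card_insert_le _ _
        have hs : T.biUnion (fun i => supp (vec n (C ++ [Gate.smul c a]) i)) ⊆
            (insert a (T.erase (n + 1 + C.length))).biUnion (fun i => supp (vec n C i)) := by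
          intro k hk
          rw [Finset.mem_biUnion] at hk ⊢
          obtain ⟨i, hiT, hik⟩ := hk
          by_cases hiN : i = n + 1 + C.length
          · rw [vec_concat, if_pos hiN] at hik
            exact ⟨a, by simp, supp_smul _ _ hik⟩
          · rw [hvec i hiN] at hik
            exact ⟨i, by simp [hiN, hiT], hik⟩
        have ha : (insert a (T.erase (n + 1 + C.length))).biUnion (anc n C) ⊆
            T.biUnion (anc n (C ++ [Gate.smul c a])) := by
          intro m hm
          rw [Finset.mem_biUnion] at hm ⊢
          obtain ⟨i, hi, him⟩ := hm
          simp only [Finset.mem_insert] at hi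
          rcases hi with hi | hi
          · exact ⟨n + 1 + C.length, hNT, by rw [anc_concat, if_pos rfl]; simpa [← hi] using him⟩
          · have hiN : i ≠ n + 1 + C.length := (Finset.mem_erase.mp hi).1
            exact ⟨i, (Finset.mem_erase.mp hi).2, by rw [hanc i hiN]; exact him⟩
        have h1 := Finset.card_le_card hs
        have h2 := ih (insert a (T.erase (n + 1 + C.length)))
        have h3 := Finset.card_le_card ha
        omega
    · have e1 : T.biUnion (fun i => supp (vec n (C ++ [g]) i)) =
          T.biUnion (fun i => supp (vec n C i)) := by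
        apply Finset.biUnion_congr rfl
        intro i hi
        rw [hvec i (fun h => hNT (h ▸ hi))]
      have e2 : T.biUnion (anc n (C ++ [g])) = T.biUnion (anc n C) := by
        apply Finset.biUnion_congr rfl
        intro i hi
        rw [hanc i (fun h => hNT (h ▸ hi))]
      rw [e1, e2]
      exact ih T

theorem exists_top (n : ℕ) (hn : 2 ≤ n) (C : List Gate) :
    ∀ i, supp (vec n C i) = Finset.univ →
      ∃ m, m ≤ i ∧ m ∈ anc n C m ∧ ∃ c : ℂ, c ≠ 0 ∧ vec n C i = c • vec n C m := by
  have huniv : (Finset.univ : Finset (Fin n)).card = n := by simp
  have hzero : supp (0 : Fin n → ℂ) ≠ Finset.univ := by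
    intro h
    have := congrArg Finset.card h
    rw [supp_zero, huniv] at this
    simp at this
    omega
  induction C using List.reverseRecOn with
  | nil =>
    intro i h
    exfalso
    have h1 := card_supp_nil n i
    rw [h, huniv] at h1
    omega
  | append_singleton C g ih =>
    intro i h
    by_cases hi : i = n + 1 + C.length
    · cases g with
      | add a b =>
        refine ⟨i, le_rfl, ?_, 1, one_ne_zero, by simp⟩
        rw [anc_concat, if_pos hi]
        simp [hi]
      | sub a b =>
        refine ⟨i, le_rfl, ?_, 1, one_ne_zero, by simp⟩
        rw [anc_concat, if_pos hi]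
        simp [hi]
      | smul c a =>
        rw [vec_concat, if_pos hi] at h
        dsimp only at h
        have hc : c ≠ 0 := by
          rintro rfl
          rw [zero_smul] at h
          exact hzero h
        have ha : supp (vec n C a) = Finset.univ := by
          rw [← supp_smul_of_ne_zero hc]
          exact h
        have haN : a < n + 1 + C.length := by
          by_contra hge
          rw [vec_of_ge n C a (by omega)] at ha
          exact hzero ha
        obtain ⟨m, hma, hmm, c', hc', hv⟩ := ih a ha
        refine ⟨m, by omega, ?_, c * c', mul_ne_zero hc hc', ?_⟩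
        · rw [anc_concat, if_neg (by omega)]
          exact hmm
        · rw [vec_concat, if_pos hi, vec_concat, if_neg (by omega)]
          simp only
          rw [hv, smul_smul]
    · rw [vec_concat, if_neg hi] at h
      obtain ⟨m, hmi, hmm, c, hc, hv⟩ := ih i h
      have hiN : i < n + 1 + C.length := by
        by_contra hge
        rw [vec_of_ge n C i (by omega)] at h
        exact hzero h
      refine ⟨m, hmi, ?_, c, hc, ?_⟩
      · rw [anc_concat, if_neg (by omega)]
        exact hmm
      · rw [vec_concat, if_neg hi, vec_concat, if_neg (by omega)]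
        exact hv

theorem addsub_count_bound (n : ℕ) (hn : 2 ≤ n) (C : List Gate) (out : Fin n → ℕ)
    (hC : ∀ x : Fin n → ℂ, ∀ j : Fin n, (eval C x).getD (out j) 0
        = ∑ k : Fin n, Complex.exp (2 * Real.pi * Complex.I / n) ^ ((j : ℕ) * (k : ℕ)) * x k) :
    2 * n ≤ C.countP Gate.isAddSub + 2 := by
  classical
  have hζ : IsPrimitiveRoot (zeta n) n := Complex.isPrimitiveRoot_exp n (by omega)
  have hrow : ∀ j, vec n C (out j) = row n j := vec_out n C out hC
  have hfull : ∀ j, supp (row n j) = Finset.univ := by
    intro j
    ext k
    simp only [mem_supp, Finset.mem_univ, iff_true, row]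
    exact pow_ne_zero _ (hζ.ne_zero (by omega))
  have hex : ∃ i, supp (vec n C i) = Finset.univ :=
    ⟨out ⟨0, by omega⟩, by rw [hrow]; exact hfull _⟩
  have ht : supp (vec n C (Nat.find hex)) = Finset.univ := Nat.find_spec hex
  have htmin : ∀ i, supp (vec n C i) = Finset.univ → Nat.find hex ≤ i :=
    fun i hi => Nat.find_min' hex hi
  have h1 := supp_anc_bound n C {Nat.find hex}
  simp only [Finset.singleton_biUnion, ht, Finset.card_univ, Fintype.card_fin,
    Finset.card_singleton] at h1
  obtain ⟨U, hU, hsub⟩ := exists_anc_bound n C
  have hm : ∀ j : Fin n, ∃ m, m ≤ out j ∧ m ∈ anc n C m ∧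
      ∃ c : ℂ, c ≠ 0 ∧ vec n C (out j) = c • vec n C m :=
    fun j => exists_top n hn C (out j) (by rw [hrow]; exact hfull j)
  choose m hm1 hm2 c hc hm3 using hm
  have hmvec : ∀ j, vec n C (m j) = (c j)⁻¹ • row n j := by
    intro j
    rw [← hrow, hm3, smul_smul, inv_mul_cancel₀ (hc j), one_smul]
  have hmfull : ∀ j, supp (vec n C (m j)) = Finset.univ := by
    intro j
    rw [hmvec, supp_smul_of_ne_zero (inv_ne_zero (hc j)), hfull]
  have hmt : ∀ j, Nat.find hex ≤ m j := fun j => htmin _ (hmfull j)
  have hminj : Function.Injective m := by
    intro j j' h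
    have e : row n j = (c j * (c j')⁻¹) • row n j' := by
      have e1 := hmvec j
      rw [h, hmvec j'] at e1
      have e2 : row n j = c j • ((c j)⁻¹ • row n j) := by
        rw [smul_smul, mul_inv_cancel₀ (hc j), one_smul]
      rw [e2, ← e1, smul_smul]
    have e0 := congrFun e ⟨0, by omega⟩
    have e1 := congrFun e ⟨1, by omega⟩
    simp only [row, Pi.smul_apply, smul_eq_mul, mul_zero, pow_zero, mul_one] at e0 e1
    rw [← e0, one_mul] at e1
    exact Fin.ext (hζ.pow_inj j.isLt j'.isLt e1)
  have hMcard : (Finset.univ.image m).card = n := by
    rw [Finset.card_image_of_injective _ hminj]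
    simp
  have hMU : Finset.univ.image m ⊆ U := by
    intro x hx
    obtain ⟨j, _, rfl⟩ := Finset.mem_image.mp hx
    exact hsub _ (hm2 j)
  have hinter : (anc n C (Nat.find hex) ∩ Finset.univ.image m).card ≤ 1 := by
    apply (Finset.card_le_card (t := {Nat.find hex}) ?_).trans (by simp)
    intro x hx
    rw [Finset.mem_inter] at hx
    obtain ⟨j, _, rfl⟩ := Finset.mem_image.mp hx.2
    have h2 := (anc_le n C _ _ hx.1).1
    have h3 := hmt j
    rw [Finset.mem_singleton]
    omega
  have hunion : (anc n C (Nat.find hex) ∪ Finset.univ.image m).card ≤ U.card :=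
    Finset.card_le_card (Finset.union_subset (hsub _) hMU)
  have := Finset.card_union_add_card_inter (anc n C (Nat.find hex)) (Finset.univ.image m)
  omega

theorem gate_count_bound (n : ℕ) (hn : 2 ≤ n) (C : List Gate) (out : Fin n → ℕ)
    (hC : ∀ x : Fin n → ℂ, ∀ j : Fin n, (eval C x).getD (out j) 0
        = ∑ k : Fin n, Complex.exp (2 * Real.pi * Complex.I / n) ^ ((j : ℕ) * (k : ℕ)) * x k) :
    3 * n ≤ C.length + (Nat.divisors n).card + 2 := by
  have h1 := smul_count_bound n (by omega) C out hC
  have h2 := addsub_count_bound n hn C out hC
  have h3 : C.length = C.countP Gate.isSmul + C.countP Gate.isAddSub := by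
    rw [List.length_eq_countP_add_countP Gate.isSmul]
    congr 1
    apply List.countP_congr
    intro g _
    cases g <;> simp [Gate.isSmul, Gate.isAddSub]
  omega

end Vale.Agent.Lib.P344
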