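import Mathlib
import Vale.Agent.Lib.P344.Add

namespace Vale.Agent.Lib.P344

open Finset

/-- `x` is zero or the coefficient vector at an earlier position. -/
def Prev (n : ℕ) (C : List Gate) (i : ℕ) (x : Fin n → ℂ) : Prop :=
  x = 0 ∨ ∃ a, a < i ∧ x = vec n C a

theorem vec_of_ne (n : ℕ) (C : List Gate) (g : Gate) (i : ℕ) (hi : i ≠ n + 1 + C.length) :
    vec n (C ++ [g]) i = vec n C i := by
  rw [vec_concat, if_neg hi]

theorem Prev_concat (n : ℕ) (C : List Gate) (g : Gate) (i : ℕ) (hi : i ≤ n + 1 + C.length)
    (x : Fin n → ℂ) (h : Prev n C i x) : Prev n (C ++ [g]) i x := by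
  rcases h with h | ⟨a, ha, h⟩
  · exact Or.inl h
  · exact Or.inr ⟨a, ha, by rw [vec_of_ne n C g a (by omega)]; exact h⟩

theorem Prev_new (n : ℕ) (C : List Gate) (g : Gate) (a : ℕ) :
    Prev n (C ++ [g]) (n + 1 + C.length) (vec n C a) := by
  by_cases ha : a < n + 1 + C.length
  · exact Or.inr ⟨a, ha, by rw [vec_of_ne n C g a (by omega)]⟩
  · exact Or.inl (vec_of_ge n C a (by omega))

/-- Local description of the coefficient vector at a position. -/
theorem vec_local (n : ℕ) (C : List Gate) : ∀ i : ℕ,
    (∃ k : Fin n, vec n C i = Pi.single k 1) ∨ vec n C i = 0 ∨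
    (∃ x y, Prev n C i x ∧ Prev n C i y ∧ vec n C i = x + y) ∨
    (∃ x y, Prev n C i x ∧ Prev n C i y ∧ vec n C i = x - y) ∨
    (∃ (c : ℂ) (x : Fin n → ℂ), Prev n C i x ∧ vec n C i = c • x) := by
  induction C using List.reverseRecOn with
  | nil =>
    intro i
    rw [vec_nil]
    split_ifs with h
    · exact Or.inl ⟨⟨i, h⟩, rfl⟩
    · exact Or.inr (Or.inl rfl)
  | append_singleton C g ih =>
    intro i
    rcases lt_trichotomy i (n + 1 + C.length) with hi | hi | hi
    · rw [vec_of_ne n C g i (by omega)]
      rcases ih i with h | h | ⟨x, y, hx, hy, h⟩ | ⟨x, y, hx, hy, h⟩ | ⟨c, x, hx, h⟩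
      · exact Or.inl h
      · exact Or.inr (Or.inl h)
      · exact Or.inr (Or.inr (Or.inl ⟨x, y, Prev_concat n C g i (by omega) x hx,
          Prev_concat n C g i (by omega) y hy, h⟩))
      · exact Or.inr (Or.inr (Or.inr (Or.inl ⟨x, y, Prev_concat n C g i (by omega) x hx,
          Prev_concat n C g i (by omega) y hy, h⟩)))
      · exact Or.inr (Or.inr (Or.inr (Or.inr ⟨c, x, Prev_concat n C g i (by omega) x hx, h⟩)))
    · subst hi
      cases g with
      | add a b =>
        refine Or.inr (Or.inr (Or.inl ⟨vec n C a, vec n C b, Prev_new n C _ a, Prev_new n C _ b, ?_⟩))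
        rw [vec_concat, if_pos rfl]
      | sub a b =>
        refine Or.inr (Or.inr (Or.inr (Or.inl
          ⟨vec n C a, vec n C b, Prev_new n C _ a, Prev_new n C _ b, ?_⟩)))
        rw [vec_concat, if_pos rfl]
      | smul c a =>
        refine Or.inr (Or.inr (Or.inr (Or.inr ⟨c, vec n C a, Prev_new n C _ a, ?_⟩)))
        rw [vec_concat, if_pos rfl]
    · exact Or.inr (Or.inl (vec_of_ge n _ i (by simp; omega)))

theorem vec_append_left (n : ℕ) (C₁ C₂ : List Gate) (i : ℕ) (h : i < n + 1 + C₁.length) :
    vec n (C₁ ++ C₂) i = vec n C₁ i := by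
  induction C₂ using List.reverseRecOn with
  | nil => simp
  | append_singleton C₂ g ih =>
    rw [← List.append_assoc, vec_of_ne n (C₁ ++ C₂) g i (by simp; omega), ih]

theorem anc_of_ne (n : ℕ) (C : List Gate) (g : Gate) (i : ℕ) (hi : i ≠ n + 1 + C.length) :
    anc n (C ++ [g]) i = anc n C i := by
  rw [anc_concat, if_neg hi]

theorem anc_append_left (n : ℕ) (C₁ C₂ : List Gate) (i : ℕ) (h : i < n + 1 + C₁.length) :
    anc n (C₁ ++ C₂) i = anc n C₁ i := by
  induction C₂ using List.reverseRecOn with
  | nil => simp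
  | append_singleton C₂ g ih =>
    rw [← List.append_assoc, anc_of_ne n (C₁ ++ C₂) g i (by simp; omega), ih]

theorem anc_input (n : ℕ) (C : List Gate) (i : ℕ) (h : i < n + 1) : anc n C i = ∅ := by
  have := anc_append_left n [] C i (by simpa using h)
  rw [List.nil_append] at this
  rw [this, anc_nil]

/-- The addition and subtraction gates of the second part of a circuit. -/
theorem exists_anc_bound_suffix (n : ℕ) (C₁ C₂ : List Gate) :
    ∃ U : Finset ℕ, U.card ≤ C₂.countP Gate.isAddSub ∧
      ∀ m, n + 1 + C₁.length ≤ m → m ∈ anc n (C₁ ++ C₂) m → m ∈ U := by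
  induction C₂ using List.reverseRecOn with
  | nil =>
    refine ⟨∅, by simp, ?_⟩
    intro m hm h
    rw [List.append_nil] at h
    have := anc_le n C₁ m m h
    omega
  | append_singleton C₂ g ih =>
    obtain ⟨U, hU, hmem⟩ := ih
    have hlen : (C₁ ++ C₂).length = C₁.length + C₂.length := by simp
    cases g with
    | add a b =>
      refine ⟨insert (n + 1 + (C₁ ++ C₂).length) U, ?_, ?_⟩
      · have := Finset.card_insert_le (n + 1 + (C₁ ++ C₂).length) U
        have h2 : ∀ g : Gate, Gate.isAddSub g = true →
            (C₂ ++ [g]).countP Gate.isAddSub = C₂.countP Gate.isAddSub + 1 := by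
          intro g hg
          simp [List.countP_append, hg]
        rw [h2 _ rfl]
        omega
      · intro m hm h
        rw [← List.append_assoc] at h
        by_cases hmN : m = n + 1 + (C₁ ++ C₂).length
        · rw [hmN]
          exact Finset.mem_insert_self _ _
        · rw [anc_of_ne n _ _ m hmN] at h
          exact Finset.mem_insert_of_mem (hmem m hm h)
    | sub a b =>
      refine ⟨insert (n + 1 + (C₁ ++ C₂).length) U, ?_, ?_⟩
      · have := Finset.card_insert_le (n + 1 + (C₁ ++ C₂).length) U
        have h2 : ∀ g : Gate, Gate.isAddSub g = true →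
            (C₂ ++ [g]).countP Gate.isAddSub = C₂.countP Gate.isAddSub + 1 := by
          intro g hg
          simp [List.countP_append, hg]
        rw [h2 _ rfl]
        omega
      · intro m hm h
        rw [← List.append_assoc] at h
        by_cases hmN : m = n + 1 + (C₁ ++ C₂).length
        · rw [hmN]
          exact Finset.mem_insert_self _ _
        · rw [anc_of_ne n _ _ m hmN] at h
          exact Finset.mem_insert_of_mem (hmem m hm h)
    | smul c a =>
      refine ⟨U, by simpa [List.countP_append, Gate.isAddSub] using hU, ?_⟩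
      intro m hm h
      rw [← List.append_assoc] at h
      by_cases hmN : m = n + 1 + (C₁ ++ C₂).length
      · exfalso
        rw [anc_concat, if_pos hmN] at h
        have := anc_le n (C₁ ++ C₂) a m h
        omega
      · rw [anc_of_ne n _ _ m hmN] at h
        exact hmem m hm h

end Vale.Agent.Lib.P344
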