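import Mathlib
import Vale.Agent.Lib.P344.Local

namespace Vale.Agent.Lib.P344

open Finset

/-! ### Representatives of projective classes -/

/-- A representative of the class of `w` up to nonzero scalars. -/
noncomputable def nf {n : ℕ} (w : Fin n → ℂ) : Fin n → ℂ :=
  Classical.epsilon (fun v => ∃ c : ℂ, c ≠ 0 ∧ v = c • w)

theorem nf_spec {n : ℕ} (w : Fin n → ℂ) : ∃ c : ℂ, c ≠ 0 ∧ nf w = c • w :=
  Classical.epsilon_spec (p := fun v => ∃ c : ℂ, c ≠ 0 ∧ v = c • w)
    ⟨w, 1, one_ne_zero, (one_smul _ _).symm⟩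

theorem nf_smul {n : ℕ} {c : ℂ} (hc : c ≠ 0) (w : Fin n → ℂ) : nf (c • w) = nf w := by
  unfold nf
  congr 1
  funext v
  apply propext
  constructor
  · rintro ⟨d, hd, h⟩
    exact ⟨d * c, mul_ne_zero hd hc, by rw [h, smul_smul]⟩
  · rintro ⟨d, hd, h⟩
    exact ⟨d / c, div_ne_zero hd hc, by rw [h, smul_smul, div_mul_cancel₀ _ hc]⟩

theorem nf_eq_zero_iff {n : ℕ} (w : Fin n → ℂ) : nf w = 0 ↔ w = 0 := by
  obtain ⟨c, hc, h⟩ := nf_spec w
  rw [h]
  simp [hc]

theorem nf_eq_nf_iff {n : ℕ} (w w' : Fin n → ℂ) :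
    nf w = nf w' ↔ ∃ c : ℂ, c ≠ 0 ∧ w' = c • w := by
  constructor
  · intro h
    obtain ⟨a, ha, h1⟩ := nf_spec w
    obtain ⟨a', ha', h2⟩ := nf_spec w'
    refine ⟨a'⁻¹ * a, mul_ne_zero (inv_ne_zero ha') ha, ?_⟩
    rw [← smul_smul, ← h1, h, h2, smul_smul, inv_mul_cancel₀ ha', one_smul]
  · rintro ⟨c, hc, rfl⟩
    exact (nf_smul hc w).symm

/-! ### Restriction to a set of coordinates -/

/-- Restriction of a vector to the coordinates in `S` (the other coordinates are set to `0`). -/
def res {n : ℕ} (S : Finset (Fin n)) (w : Fin n → ℂ) : Fin n → ℂ :=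
  fun k => if k ∈ S then w k else 0

theorem res_apply {n : ℕ} (S : Finset (Fin n)) (w : Fin n → ℂ) (k : Fin n) :
    res S w k = if k ∈ S then w k else 0 := rfl

theorem res_zero {n : ℕ} (S : Finset (Fin n)) : res S (0 : Fin n → ℂ) = 0 := by
  funext k
  simp [res]

theorem res_add {n : ℕ} (S : Finset (Fin n)) (u v : Fin n → ℂ) :
    res S (u + v) = res S u + res S v := by
  funext k
  simp only [res, Pi.add_apply]
  split_ifs <;> simp

theorem res_sub {n : ℕ} (S : Finset (Fin n)) (u v : Fin n → ℂ) :
    res S (u - v) = res S u - res S v := by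
  funext k
  simp only [res, Pi.sub_apply]
  split_ifs <;> simp

theorem res_smul {n : ℕ} (S : Finset (Fin n)) (c : ℂ) (v : Fin n → ℂ) :
    res S (c • v) = c • res S v := by
  funext k
  simp only [res, Pi.smul_apply, smul_eq_mul]
  split_ifs <;> simp

theorem res_res_erase {n : ℕ} (S : Finset (Fin n)) (k : Fin n) (w : Fin n → ℂ) :
    res (S.erase k) (res S w) = res (S.erase k) w := by
  funext j
  simp only [res]
  by_cases h : j ∈ S.erase k
  · rw [if_pos h, if_pos h, if_pos (Finset.mem_of_mem_erase h)]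
  · rw [if_neg h, if_neg h]

theorem res_single_of_mem {n : ℕ} (S : Finset (Fin n)) (k : Fin n) (hk : k ∈ S) :
    res S (Pi.single k 1 : Fin n → ℂ) = Pi.single k 1 := by
  funext j
  simp only [res]
  by_cases h : j ∈ S
  · rw [if_pos h]
  · rw [if_neg h]
    have : j ≠ k := fun e => h (e ▸ hk)
    simp [Pi.single_apply, this]

theorem res_erase_single_self {n : ℕ} (S : Finset (Fin n)) (k : Fin n) :
    res (S.erase k) (Pi.single k 1 : Fin n → ℂ) = 0 := by
  funext j
  simp only [res, Pi.zero_apply]
  by_cases h : j ∈ S.erase k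
  · rw [if_pos h]
    have : j ≠ k := (Finset.mem_erase.mp h).1
    simp [Pi.single_apply, this]
  · rw [if_neg h]

theorem res_erase_eq_zero_iff {n : ℕ} (S : Finset (Fin n)) (k : Fin n) (w : Fin n → ℂ) :
    res (S.erase k) (res S w) = 0 ↔ ∃ c : ℂ, res S w = c • (Pi.single k 1 : Fin n → ℂ) := by
  constructor
  · intro h
    refine ⟨res S w k, ?_⟩
    funext j
    by_cases hj : j = k
    · subst hj
      simp
    · have h1 := congrFun h j
      simp only [res, Pi.zero_apply] at h1
      simp only [Pi.smul_apply, smul_eq_mul, Pi.single_apply, hj, if_false, mul_zero]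
      by_cases hjS : j ∈ S
      · rw [if_pos (Finset.mem_erase.mpr ⟨hj, hjS⟩), if_pos hjS] at h1
        simp only [res, if_pos hjS]
        exact h1
      · simp only [res, if_neg hjS]
  · rintro ⟨c, hc⟩
    rw [hc, res_smul, res_erase_single_self, smul_zero]

theorem nf_res_nf {n : ℕ} (T : Finset (Fin n)) (w : Fin n → ℂ) :
    nf (res T (nf w)) = nf (res T w) := by
  obtain ⟨c, hc, h⟩ := nf_spec w
  rw [h, res_smul, nf_smul hc]

/-! ### The set of classes of the computed vectors, restricted to `S` -/

open Classical in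
/-- The set of classes (represented by `nf`) of the nonzero restrictions to `S` of the
computed coefficient vectors. -/
noncomputable def Cl (n : ℕ) (C : List Gate) (S : Finset (Fin n)) : Finset (Fin n → ℂ) :=
  ((Finset.range (n + 1 + C.length)).image (fun i => nf (res S (vec n C i)))).erase 0

theorem mem_Cl (n : ℕ) (C : List Gate) (S : Finset (Fin n)) (x : Fin n → ℂ) :
    x ∈ Cl n C S ↔ ∃ i, res S (vec n C i) ≠ 0 ∧ x = nf (res S (vec n C i)) := by
  classical
  unfold Cl
  rw [Finset.mem_erase, Finset.mem_image]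
  constructor
  · rintro ⟨hx, i, _, rfl⟩
    exact ⟨i, fun h => hx ((nf_eq_zero_iff _).mpr h), rfl⟩
  · rintro ⟨i, hi, rfl⟩
    refine ⟨fun h => hi ((nf_eq_zero_iff _).mp h), i, ?_, rfl⟩
    rw [Finset.mem_range]
    by_contra hge
    rw [vec_of_ge n C i (by omega), res_zero] at hi
    exact hi rfl

theorem card_Cl_le (n : ℕ) (C : List Gate) (S : Finset (Fin n)) :
    (Cl n C S).card ≤ n + C.countP Gate.isAddSub := by
  classical
  induction C using List.reverseRecOn with
  | nil =>
    have hsub : Cl n [] S ⊆ Finset.univ.image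
        (fun k : Fin n => nf (res S (Pi.single k 1 : Fin n → ℂ))) := by
      intro x hx
      rw [mem_Cl] at hx
      obtain ⟨i, hi, rfl⟩ := hx
      rw [vec_nil] at hi ⊢
      split_ifs at hi ⊢ with h
      · exact Finset.mem_image.mpr ⟨⟨i, h⟩, Finset.mem_univ _, rfl⟩
      · rw [res_zero] at hi
        exact absurd rfl hi
    calc (Cl n [] S).card ≤ _ := Finset.card_le_card hsub
      _ ≤ (Finset.univ : Finset (Fin n)).card := Finset.card_image_le
      _ = n := by simp
      _ ≤ _ := Nat.le_add_right _ _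
  | append_singleton C g ih =>
    have hold : ∀ x, (∃ i, i ≠ n + 1 + C.length ∧ res S (vec n (C ++ [g]) i) ≠ 0 ∧
        x = nf (res S (vec n (C ++ [g]) i))) → x ∈ Cl n C S := by
      rintro x ⟨i, hi, h1, h2⟩
      rw [vec_of_ne n C g i hi] at h1 h2
      exact (mem_Cl n C S x).mpr ⟨i, h1, h2⟩
    cases g with
    | add a b =>
      have hsub : Cl n (C ++ [Gate.add a b]) S ⊆
          insert (nf (res S (vec n (C ++ [Gate.add a b]) (n + 1 + C.length)))) (Cl n C S) := by
        intro x hx
        rw [mem_Cl] at hx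
        obtain ⟨i, hi, hx⟩ := hx
        by_cases hiN : i = n + 1 + C.length
        · rw [hiN] at hx
          rw [hx]
          exact Finset.mem_insert_self _ _
        · exact Finset.mem_insert_of_mem (hold x ⟨i, hiN, hi, hx⟩)
      have h1 := Finset.card_le_card hsub
      have h2 := Finset.card_insert_le
        (nf (res S (vec n (C ++ [Gate.add a b]) (n + 1 + C.length)))) (Cl n C S)
      have h3 : (C ++ [Gate.add a b]).countP Gate.isAddSub = C.countP Gate.isAddSub + 1 := by
        simp [List.countP_append, Gate.isAddSub]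
      omega
    | sub a b =>
      have hsub : Cl n (C ++ [Gate.sub a b]) S ⊆
          insert (nf (res S (vec n (C ++ [Gate.sub a b]) (n + 1 + C.length)))) (Cl n C S) := by
        intro x hx
        rw [mem_Cl] at hx
        obtain ⟨i, hi, hx⟩ := hx
        by_cases hiN : i = n + 1 + C.length
        · rw [hiN] at hx
          rw [hx]
          exact Finset.mem_insert_self _ _
        · exact Finset.mem_insert_of_mem (hold x ⟨i, hiN, hi, hx⟩)
      have h1 := Finset.card_le_card hsub
      have h2 := Finset.card_insert_le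
        (nf (res S (vec n (C ++ [Gate.sub a b]) (n + 1 + C.length)))) (Cl n C S)
      have h3 : (C ++ [Gate.sub a b]).countP Gate.isAddSub = C.countP Gate.isAddSub + 1 := by
        simp [List.countP_append, Gate.isAddSub]
      omega
    | smul c a =>
      have hsub : Cl n (C ++ [Gate.smul c a]) S ⊆ Cl n C S := by
        intro x hx
        rw [mem_Cl] at hx
        obtain ⟨i, hi, hx⟩ := hx
        by_cases hiN : i = n + 1 + C.length
        · rw [vec_concat, if_pos hiN] at hi hx
          dsimp only at hi hx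
          rw [res_smul] at hi hx
          have hc : c ≠ 0 := by
            rintro rfl
            rw [zero_smul] at hi
            exact hi rfl
          have ha : res S (vec n C a) ≠ 0 := by
            intro h
            rw [h, smul_zero] at hi
            exact hi rfl
          rw [nf_smul hc] at hx
          exact (mem_Cl n C S x).mpr ⟨a, ha, hx⟩
        · exact hold x ⟨i, hiN, hi, hx⟩
      have h1 := Finset.card_le_card hsub
      have h3 : (C ++ [Gate.smul c a]).countP Gate.isAddSub = C.countP Gate.isAddSub := by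
        simp [List.countP_append, Gate.isAddSub]
      omega

/-! ### A counting lemma for images -/

theorem card_image_add_two_le_aux {α β : Type*} [DecidableEq α] [DecidableEq β] (A : Finset α)
    (f : α → β) (u v u₀ v₀ : α) (hu : u ∈ A) (hv : v ∈ A) (huv : u ≠ v)
    (hu₀ : u₀ ∈ A) (hu₀u : u₀ ≠ u) (hu₀v : u₀ ≠ v) (hfu : f u₀ = f u)
    (hv₀ : v₀ ∈ A) (hv₀u : v₀ ≠ u) (hv₀v : v₀ ≠ v) (hfv : f v₀ = f v) :
    (A.image f).card + 2 ≤ A.card := by
  have hsub : A.image f ⊆ ((A.erase u).erase v).image f := by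
    intro z hz
    obtain ⟨w, hw, rfl⟩ := Finset.mem_image.mp hz
    by_cases h1 : w = u
    · rw [h1, ← hfu]
      exact Finset.mem_image_of_mem f
        (Finset.mem_erase.mpr ⟨hu₀v, Finset.mem_erase.mpr ⟨hu₀u, hu₀⟩⟩)
    · by_cases h2 : w = v
      · rw [h2, ← hfv]
        exact Finset.mem_image_of_mem f
          (Finset.mem_erase.mpr ⟨hv₀v, Finset.mem_erase.mpr ⟨hv₀u, hv₀⟩⟩)
      · exact Finset.mem_image_of_mem f
          (Finset.mem_erase.mpr ⟨h2, Finset.mem_erase.mpr ⟨h1, hw⟩⟩)
  have h1 := Finset.card_le_card hsub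
  have h2 : (((A.erase u).erase v).image f).card ≤ ((A.erase u).erase v).card :=
    Finset.card_image_le
  have h3 : ((A.erase u).erase v).card = (A.erase u).card - 1 :=
    Finset.card_erase_of_mem (Finset.mem_erase.mpr ⟨huv.symm, hv⟩)
  have h4 : (A.erase u).card = A.card - 1 := Finset.card_erase_of_mem hu
  have h5 : 2 ≤ A.card := by
    have : ({u, v} : Finset α) ⊆ A := by
      intro z hz
      rcases Finset.mem_insert.mp hz with h | h
      · rw [h]; exact hu
      · rw [Finset.mem_singleton.mp h]; exact hv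
    have := Finset.card_le_card this
    rwa [Finset.card_pair huv] at this
  omega

theorem card_image_add_two_le {α β : Type*} [DecidableEq α] [DecidableEq β] (A : Finset α)
    (f : α → β) (x y x' y' : α) (hx : x ∈ A) (hy : y ∈ A) (hx' : x' ∈ A) (hy' : y' ∈ A)
    (hxy : x ≠ y) (hxy' : x' ≠ y') (hf : f x = f y) (hf' : f x' = f y')
    (hne : ¬ ((x' = x ∧ y' = y) ∨ (x' = y ∧ y' = x))) :
    (A.image f).card + 2 ≤ A.card := by
  by_cases h1 : y' = x
  · -- then x' ≠ y (else excluded), x' ≠ x
    have hx'y : x' ≠ y := fun h => hne (Or.inr ⟨h, h1⟩)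
    have hx'x : x' ≠ x := fun h => hxy' (h.trans h1.symm)
    -- remove y and x'; cover y by x, cover x' by y' = x
    exact card_image_add_two_le_aux A f y x' x y' hy hx' (Ne.symm hx'y) hx hxy
      (Ne.symm hx'x) hf hy' (by rw [h1]; exact hxy) (Ne.symm hxy') hf'.symm
  · by_cases h2 : y' = y
    · have hx'x : x' ≠ x := fun h => hne (Or.inl ⟨h, h2⟩)
      have hx'y : x' ≠ y := fun h => hxy' (h.trans h2.symm)
      -- remove x and x'; cover x by y, cover x' by y' = y
      exact card_image_add_two_le_aux A f x x' y y' hx hx' (Ne.symm hx'x) hy (Ne.symm hxy)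
        (Ne.symm hx'y) hf.symm hy' (by rw [h2]; exact Ne.symm hxy) (Ne.symm hxy') hf'.symm
    · by_cases h3 : x' = y
      · -- remove x and y'; cover x by y, cover y' by x' = y
        exact card_image_add_two_le_aux A f x y' y x' hx hy' (Ne.symm h1) hy (Ne.symm hxy)
          (Ne.symm h2) hf.symm hx' (by rw [h3]; exact Ne.symm hxy) hxy' hf'
      · -- remove y and y'; cover y by x, cover y' by x'
        exact card_image_add_two_le_aux A f y y' x x' hy hy' (Ne.symm h2) hx hxy
          (Ne.symm h1) hf hx' h3 hxy' hf'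

end Vale.Agent.Lib.P344
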