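import Mathlib
import Vale.Agent.Lib.P344.Classes

namespace Vale.Agent.Lib.P344

open Finset

theorem single_ne_zero {n : ℕ} (k : Fin n) : (Pi.single k 1 : Fin n → ℂ) ≠ 0 := by
  intro h
  have := congrFun h k
  simp at this

theorem single_mem_Cl (n : ℕ) (C : List Gate) (S : Finset (Fin n)) (k : Fin n) (hk : k ∈ S) :
    nf (Pi.single k 1 : Fin n → ℂ) ∈ Cl n C S := by
  rw [mem_Cl]
  refine ⟨k, ?_, ?_⟩
  · rw [vec_input, res_single_of_mem S k hk]
    exact single_ne_zero k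
  · rw [vec_input, res_single_of_mem S k hk]

theorem image_res_erase (n : ℕ) (C : List Gate) (S : Finset (Fin n)) (k : Fin n) (hk : k ∈ S)
    [DecidableEq (Fin n → ℂ)] :
    ((Cl n C S).erase (nf (Pi.single k 1 : Fin n → ℂ))).image
      (fun x => nf (res (S.erase k) x)) = Cl n C (S.erase k) := by
  ext y
  rw [Finset.mem_image]
  constructor
  · rintro ⟨x, hx, rfl⟩
    rw [Finset.mem_erase] at hx
    obtain ⟨hxk, hx⟩ := hx
    rw [mem_Cl] at hx
    obtain ⟨i, hi, rfl⟩ := hx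
    rw [mem_Cl]
    refine ⟨i, ?_, ?_⟩
    · intro h0
      rw [← res_res_erase] at h0
      obtain ⟨c, hc⟩ := (res_erase_eq_zero_iff S k (vec n C i)).mp h0
      have hc0 : c ≠ 0 := by
        rintro rfl
        rw [zero_smul] at hc
        exact hi hc
      apply hxk
      rw [hc, nf_smul hc0]
    · rw [nf_res_nf, res_res_erase]
  · intro hy
    rw [mem_Cl] at hy
    obtain ⟨i, hi, rfl⟩ := hy
    have hi' : res S (vec n C i) ≠ 0 := by
      intro h0
      apply hi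
      rw [← res_res_erase, h0, res_zero]
    refine ⟨nf (res S (vec n C i)), ?_, ?_⟩
    · rw [Finset.mem_erase]
      refine ⟨?_, (mem_Cl n C S _).mpr ⟨i, hi', rfl⟩⟩
      intro h
      obtain ⟨c, hc, h1⟩ := (nf_eq_nf_iff _ _).mp h
      apply hi
      rw [← res_res_erase]
      refine (res_erase_eq_zero_iff S k (vec n C i)).mpr ⟨c⁻¹, ?_⟩
      rw [h1, smul_smul, inv_mul_cancel₀ hc, one_smul]
    · rw [nf_res_nf, res_res_erase]

theorem merge_bound (n : ℕ) (C : List Gate) (S : Finset (Fin n)) (k : Fin n) (hk : k ∈ S)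
    (x y x' y' : Fin n → ℂ)
    (hx : x ∈ Cl n C S) (hy : y ∈ Cl n C S) (hx' : x' ∈ Cl n C S) (hy' : y' ∈ Cl n C S)
    (hxk : x ≠ nf (Pi.single k 1 : Fin n → ℂ)) (hyk : y ≠ nf (Pi.single k 1 : Fin n → ℂ))
    (hx'k : x' ≠ nf (Pi.single k 1 : Fin n → ℂ)) (hy'k : y' ≠ nf (Pi.single k 1 : Fin n → ℂ))
    (hxy : x ≠ y) (hxy' : x' ≠ y')
    (hf : nf (res (S.erase k) x) = nf (res (S.erase k) y))
    (hf' : nf (res (S.erase k) x') = nf (res (S.erase k) y'))
    (hne : ¬ ((x' = x ∧ y' = y) ∨ (x' = y ∧ y' = x))) :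
    (Cl n C (S.erase k)).card + 3 ≤ (Cl n C S).card := by
  classical
  have h1 := card_image_add_two_le ((Cl n C S).erase (nf (Pi.single k 1 : Fin n → ℂ)))
    (fun x => nf (res (S.erase k) x)) x y x' y'
    (Finset.mem_erase.mpr ⟨hxk, hx⟩) (Finset.mem_erase.mpr ⟨hyk, hy⟩)
    (Finset.mem_erase.mpr ⟨hx'k, hx'⟩) (Finset.mem_erase.mpr ⟨hy'k, hy'⟩) hxy hxy' hf hf' hne
  rw [image_res_erase n C S k hk] at h1
  have h2 : ((Cl n C S).erase (nf (Pi.single k 1 : Fin n → ℂ))).card = (Cl n C S).card - 1 :=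
    Finset.card_erase_of_mem (single_mem_Cl n C S k hk)
  have h3 : 1 ≤ (Cl n C S).card := Finset.card_pos.mpr ⟨_, single_mem_Cl n C S k hk⟩
  omega

/-- Every pair of distinct classes, other than the class of the `k`-th unit vector, that have
the same class after deleting coordinate `k`, is the pair `{x₀, y₀}`. -/
def SingleMerge (n : ℕ) (C : List Gate) (S : Finset (Fin n)) (k : Fin n)
    (x₀ y₀ : Fin n → ℂ) : Prop :=
  ∀ x y, x ∈ Cl n C S → y ∈ Cl n C S → x ≠ nf (Pi.single k 1 : Fin n → ℂ) →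
    y ≠ nf (Pi.single k 1 : Fin n → ℂ) → x ≠ y →
    nf (res (S.erase k) x) = nf (res (S.erase k) y) → (x = x₀ ∧ y = y₀) ∨ (x = y₀ ∧ y = x₀)

theorem merge_dichotomy (n : ℕ) (C : List Gate) (S : Finset (Fin n)) (k : Fin n) (hk : k ∈ S)
    (x₀ y₀ : Fin n → ℂ) (hx₀ : x₀ ∈ Cl n C S) (hy₀ : y₀ ∈ Cl n C S)
    (hx₀k : x₀ ≠ nf (Pi.single k 1 : Fin n → ℂ)) (hy₀k : y₀ ≠ nf (Pi.single k 1 : Fin n → ℂ))
    (hxy₀ : x₀ ≠ y₀) (hf₀ : nf (res (S.erase k) x₀) = nf (res (S.erase k) y₀)) :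
    (Cl n C (S.erase k)).card + 3 ≤ (Cl n C S).card ∨ SingleMerge n C S k x₀ y₀ := by
  by_cases h : SingleMerge n C S k x₀ y₀
  · exact Or.inr h
  · left
    unfold SingleMerge at h
    push Not at h
    obtain ⟨x, y, hx, hy, hxk, hyk, hxy, hf, hne⟩ := h
    refine merge_bound n C S k hk x₀ y₀ x y hx₀ hy₀ hx hy hx₀k hy₀k hxk hyk hxy₀ hxy hf₀ hf ?_
    rintro (⟨h1, h2⟩ | ⟨h1, h2⟩)
    · exact (hne.1 h1) h2
    · exact (hne.2 h1) h2

/-- The invariant: `w` is a multiple of the `k`-th or of the `l`-th unit vector, or its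
coordinates `k`, `l` are proportional to `(α, β)`. -/
def JJ {n : ℕ} (k l : Fin n) (α β : ℂ) (w : Fin n → ℂ) : Prop :=
  (∃ c : ℂ, w = c • (Pi.single k 1 : Fin n → ℂ)) ∨
    (∃ c : ℂ, w = c • (Pi.single l 1 : Fin n → ℂ)) ∨ w k * β = w l * α

theorem JJ_symm {n : ℕ} {k l : Fin n} {α β : ℂ} {w : Fin n → ℂ} (h : JJ l k β α w) :
    JJ k l α β w := by
  rcases h with h | h | h
  · exact Or.inr (Or.inl h)
  · exact Or.inl h
  · exact Or.inr (Or.inr h.symm)

theorem JJ_zero {n : ℕ} {k l : Fin n} {α β : ℂ} : JJ k l α β (0 : Fin n → ℂ) :=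
  Or.inr (Or.inr (by simp))

theorem JJ_smul {n : ℕ} {k l : Fin n} {α β : ℂ} {w : Fin n → ℂ} (c : ℂ) (h : JJ k l α β w) :
    JJ k l α β (c • w) := by
  rcases h with ⟨d, h⟩ | ⟨d, h⟩ | h
  · exact Or.inl ⟨c * d, by rw [h, smul_smul]⟩
  · exact Or.inr (Or.inl ⟨c * d, by rw [h, smul_smul]⟩)
  · refine Or.inr (Or.inr ?_)
    simp only [Pi.smul_apply, smul_eq_mul]
    linear_combination c * h

theorem JJ_step (n : ℕ) (C : List Gate) (S : Finset (Fin n)) (k l : Fin n)
    (hkl : k ≠ l) (α β : ℂ)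
    (hsm : SingleMerge n C S k
      (nf (α • (Pi.single k 1 : Fin n → ℂ) + β • (Pi.single l 1 : Fin n → ℂ)))
      (nf (Pi.single l 1 : Fin n → ℂ)))
    (c : ℂ) (hc : c ≠ 0) (W : Fin n → ℂ) (hW : W = 0 ∨ ∃ b, W = res S (vec n C b))
    (i : ℕ) (a b' : ℂ) (ha : a ≠ 0) (hb' : b' ≠ 0)
    (hG : res S (vec n C i) = a • (c • (Pi.single k 1 : Fin n → ℂ)) + b' • W) :
    JJ k l α β (res S (vec n C i)) := by
  by_cases hWk : ∃ c' : ℂ, W = c' • (Pi.single k 1 : Fin n → ℂ)
  · obtain ⟨c', rfl⟩ := hWk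
    left
    exact ⟨a * c + b' * c', by rw [hG, smul_smul, smul_smul, ← add_smul]⟩
  · have hW0 : W ≠ 0 := fun h => hWk ⟨0, by rw [h, zero_smul]⟩
    obtain ⟨b, hWb⟩ := hW.resolve_left hW0
    have hsolve : ∀ (d : ℂ), b' • W = d • (Pi.single k 1 : Fin n → ℂ) → False := by
      intro d hd
      apply hWk
      refine ⟨b'⁻¹ * d, ?_⟩
      rw [← smul_smul, ← hd, smul_smul, inv_mul_cancel₀ hb', one_smul]
    have hG0 : res S (vec n C i) ≠ 0 := by
      intro h0
      rw [h0] at hG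
      apply hsolve (-(a * c))
      rw [neg_smul, ← smul_smul]
      exact eq_neg_of_add_eq_zero_right hG.symm
    have hGmem : nf (res S (vec n C i)) ∈ Cl n C S := (mem_Cl n C S _).mpr ⟨i, hG0, rfl⟩
    have hWmem : nf W ∈ Cl n C S := by
      rw [hWb] at hW0 ⊢
      exact (mem_Cl n C S _).mpr ⟨b, hW0, rfl⟩
    have hGk : nf (res S (vec n C i)) ≠ nf (Pi.single k 1 : Fin n → ℂ) := by
      intro h
      obtain ⟨d, hd, h1⟩ := (nf_eq_nf_iff _ _).mp h.symm
      apply hsolve (d - a * c)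
      rw [sub_smul, ← h1, hG, smul_smul]
      abel
    have hWk' : nf W ≠ nf (Pi.single k 1 : Fin n → ℂ) := by
      intro h
      obtain ⟨d, hd, h1⟩ := (nf_eq_nf_iff _ _).mp h.symm
      exact hWk ⟨d, h1⟩
    have hGW : nf (res S (vec n C i)) ≠ nf W := by
      intro h
      obtain ⟨d, hd, h1⟩ := (nf_eq_nf_iff _ _).mp h.symm
      -- d • W = a • c • e_k + b' • W
      have h2 : (d - b') • W = (a * c) • (Pi.single k 1 : Fin n → ℂ) := by
        rw [sub_smul, ← h1, hG, smul_smul]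
        abel
      by_cases hdb : d = b'
      · rw [hdb, sub_self, zero_smul] at h2
        have := congrFun h2 k
        simp at this
        rcases this with h | h
        · exact ha h
        · exact hc h
      · apply hWk
        refine ⟨(d - b')⁻¹ * (a * c), ?_⟩
        rw [← smul_smul, ← h2, smul_smul, inv_mul_cancel₀ (sub_ne_zero.mpr hdb), one_smul]
    have hmerge : nf (res (S.erase k) (nf (res S (vec n C i)))) = nf (res (S.erase k) (nf W)) := by
      rw [nf_res_nf, nf_res_nf, hG, res_add, res_smul, res_smul, res_erase_single_self,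
        smul_zero, smul_zero, zero_add, res_smul, nf_smul hb']
    rcases hsm _ _ hGmem hWmem hGk hWk' hGW hmerge with ⟨h1, _⟩ | ⟨h1, _⟩
    · obtain ⟨d, hd, h2⟩ := (nf_eq_nf_iff _ _).mp h1.symm
      refine Or.inr (Or.inr ?_)
      rw [h2]
      simp only [Pi.smul_apply, Pi.add_apply, smul_eq_mul, Pi.single_apply, if_true,
        if_neg hkl, if_neg (Ne.symm hkl), mul_one, mul_zero, add_zero, zero_add]
      ring
    · obtain ⟨d, hd, h2⟩ := (nf_eq_nf_iff _ _).mp h1.symm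
      exact Or.inr (Or.inl ⟨d, h2⟩)

theorem JJ_combo (n : ℕ) (C : List Gate) (S : Finset (Fin n)) (k l : Fin n)
    (hkl : k ≠ l) (α β : ℂ)
    (hk' : SingleMerge n C S k
      (nf (α • (Pi.single k 1 : Fin n → ℂ) + β • (Pi.single l 1 : Fin n → ℂ)))
      (nf (Pi.single l 1 : Fin n → ℂ)))
    (hl' : SingleMerge n C S l
      (nf (α • (Pi.single k 1 : Fin n → ℂ) + β • (Pi.single l 1 : Fin n → ℂ)))
      (nf (Pi.single k 1 : Fin n → ℂ)))
    (X Y : Fin n → ℂ) (hX : X = 0 ∨ ∃ b, X = res S (vec n C b))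
    (hY : Y = 0 ∨ ∃ b, Y = res S (vec n C b)) (hJX : JJ k l α β X) (hJY : JJ k l α β Y)
    (i : ℕ) (a b : ℂ) (ha : a ≠ 0) (hb : b ≠ 0) (hG : res S (vec n C i) = a • X + b • Y) :
    JJ k l α β (res S (vec n C i)) := by
  have hl'' : SingleMerge n C S l
      (nf (β • (Pi.single l 1 : Fin n → ℂ) + α • (Pi.single k 1 : Fin n → ℂ)))
      (nf (Pi.single k 1 : Fin n → ℂ)) := by
    rw [add_comm]
    exact hl'
  rcases hJX with ⟨c, hXc⟩ | ⟨c, hXc⟩ | hX3
  · by_cases hc : c = 0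
    · rw [hc, zero_smul] at hXc
      rw [hG, hXc, smul_zero, zero_add]
      exact JJ_smul b hJY
    · exact JJ_step n C S k l hkl α β hk' c hc Y hY i a b ha hb (by rw [hG, hXc])
  · by_cases hc : c = 0
    · rw [hc, zero_smul] at hXc
      rw [hG, hXc, smul_zero, zero_add]
      exact JJ_smul b hJY
    · exact JJ_symm (JJ_step n C S l k (Ne.symm hkl) β α hl'' c hc Y hY i a b ha hb
        (by rw [hG, hXc]))
  · rcases hJY with ⟨c, hYc⟩ | ⟨c, hYc⟩ | hY3
    · by_cases hc : c = 0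
      · rw [hc, zero_smul] at hYc
        rw [hG, hYc, smul_zero, add_zero]
        exact JJ_smul a (Or.inr (Or.inr hX3))
      · exact JJ_step n C S k l hkl α β hk' c hc X hX i b a hb ha
          (by rw [hG, hYc, add_comm])
    · by_cases hc : c = 0
      · rw [hc, zero_smul] at hYc
        rw [hG, hYc, smul_zero, add_zero]
        exact JJ_smul a (Or.inr (Or.inr hX3))
      · exact JJ_symm (JJ_step n C S l k (Ne.symm hkl) β α hl'' c hc X hX i b a hb ha
          (by rw [hG, hYc, add_comm]))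
    · refine Or.inr (Or.inr ?_)
      rw [hG]
      simp only [Pi.add_apply, Pi.smul_apply, smul_eq_mul]
      linear_combination a * hX3 + b * hY3

theorem JJ_all (n : ℕ) (C : List Gate) (S : Finset (Fin n)) (k l : Fin n)
    (hk : k ∈ S) (hl : l ∈ S) (hkl : k ≠ l) (α β : ℂ)
    (hk' : SingleMerge n C S k
      (nf (α • (Pi.single k 1 : Fin n → ℂ) + β • (Pi.single l 1 : Fin n → ℂ)))
      (nf (Pi.single l 1 : Fin n → ℂ)))
    (hl' : SingleMerge n C S l
      (nf (α • (Pi.single k 1 : Fin n → ℂ) + β • (Pi.single l 1 : Fin n → ℂ)))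
      (nf (Pi.single k 1 : Fin n → ℂ))) :
    ∀ i, JJ k l α β (res S (vec n C i)) := by
  intro i
  induction i using Nat.strong_induction_on with
  | _ i ih =>
    have hprev : ∀ x, Prev n C i x →
        (res S x = 0 ∨ ∃ b, res S x = res S (vec n C b)) ∧ JJ k l α β (res S x) := by
      rintro x (rfl | ⟨a, ha, rfl⟩)
      · rw [res_zero]
        exact ⟨Or.inl rfl, JJ_zero⟩
      · exact ⟨Or.inr ⟨a, rfl⟩, ih a ha⟩
    rcases vec_local n C i with ⟨j, h⟩ | h | ⟨x, y, hx, hy, h⟩ | ⟨x, y, hx, hy, h⟩ | ⟨c, x, hx, h⟩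
    · rw [h]
      by_cases hjk : j = k
      · rw [hjk, res_single_of_mem S k hk]
        exact Or.inl ⟨1, (one_smul _ _).symm⟩
      · by_cases hjl : j = l
        · rw [hjl, res_single_of_mem S l hl]
          exact Or.inr (Or.inl ⟨1, (one_smul _ _).symm⟩)
        · refine Or.inr (Or.inr ?_)
          simp only [res_apply, if_pos hk, if_pos hl, Pi.single_apply, if_neg (Ne.symm hjk),
            if_neg (Ne.symm hjl), zero_mul]
    · rw [h, res_zero]
      exact JJ_zero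
    · obtain ⟨hX, hJX⟩ := hprev x hx
      obtain ⟨hY, hJY⟩ := hprev y hy
      exact JJ_combo n C S k l hkl α β hk' hl' (res S x) (res S y) hX hY hJX hJY i 1 1
        one_ne_zero one_ne_zero (by rw [h, res_add, one_smul, one_smul])
    · obtain ⟨hX, hJX⟩ := hprev x hx
      obtain ⟨hY, hJY⟩ := hprev y hy
      exact JJ_combo n C S k l hkl α β hk' hl' (res S x) (res S y) hX hY hJX hJY i 1 (-1)
        one_ne_zero (neg_ne_zero.mpr one_ne_zero)
        (by rw [h, res_sub, one_smul, neg_one_smul, sub_eq_add_neg])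
    · rw [h, res_smul]
      exact JJ_smul c (hprev x hx).2

end Vale.Agent.Lib.P344
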