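import Mathlib
import Vale.Agent.Lib.P344.Merge

namespace Vale.Agent.Lib.P344

open Finset

theorem eq_smul_single_of_card_supp {n : ℕ} (X : Fin n → ℂ) (h : (supp X).card ≤ 1)
    (k : Fin n) (hk : k ∈ supp X) : X = X k • (Pi.single k 1 : Fin n → ℂ) := by
  funext j
  by_cases hj : j = k
  · subst hj
    simp
  · have : j ∉ supp X := fun hjs => hj (Finset.card_le_one.mp h j hjs k hk)
    rw [mem_supp, not_not] at this
    simp [this, hj]

theorem exists_pair (n : ℕ) (C : List Gate) (S : Finset (Fin n)) (p : ℕ)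
    (hp : 2 ≤ (supp (res S (vec n C p))).card) :
    ∃ k l : Fin n, k ∈ S ∧ l ∈ S ∧ k ≠ l ∧ ∃ (i : ℕ) (α β : ℂ), α ≠ 0 ∧ β ≠ 0 ∧
      res S (vec n C i) =
        α • (Pi.single k 1 : Fin n → ℂ) + β • (Pi.single l 1 : Fin n → ℂ) := by
  classical
  have hex : ∃ i, 2 ≤ (supp (res S (vec n C i))).card := ⟨p, hp⟩
  have hspec := Nat.find_spec hex
  have hmin : ∀ a, a < Nat.find hex → (supp (res S (vec n C a))).card ≤ 1 := by
    intro a ha
    have := Nat.find_min hex ha
    omega
  have hprev : ∀ x, Prev n C (Nat.find hex) x → (supp (res S x)).card ≤ 1 := by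
    rintro x (rfl | ⟨a, ha, rfl⟩)
    · rw [res_zero, supp_zero]
      simp
    · exact hmin a ha
  have hmemS : ∀ (x : Fin n → ℂ) (k : Fin n), k ∈ supp (res S x) → k ∈ S := by
    intro x k hk
    rw [mem_supp, res_apply] at hk
    by_contra hkS
    rw [if_neg hkS] at hk
    exact hk rfl
  -- the main combination step
  have hmain : ∀ (X Y : Fin n → ℂ), (supp X).card ≤ 1 → (supp Y).card ≤ 1 →
      2 ≤ (supp X ∪ supp Y).card →
      ∃ k l : Fin n, k ∈ supp X ∧ l ∈ supp Y ∧ k ≠ l ∧
        X = X k • (Pi.single k 1 : Fin n → ℂ) ∧ Y = Y l • (Pi.single l 1 : Fin n → ℂ) := by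
    intro X Y hX hY hXY
    have hu := Finset.card_union_le (supp X) (supp Y)
    have hXne : (supp X).Nonempty := by
      rw [← Finset.card_pos]
      omega
    have hYne : (supp Y).Nonempty := by
      rw [← Finset.card_pos]
      omega
    obtain ⟨k, hk⟩ := hXne
    obtain ⟨l, hl⟩ := hYne
    refine ⟨k, l, hk, hl, ?_, eq_smul_single_of_card_supp X hX k hk,
      eq_smul_single_of_card_supp Y hY l hl⟩
    intro hkl
    have hsub : supp X ∪ supp Y ⊆ {k} := by
      intro j hj
      rw [Finset.mem_singleton]
      rcases Finset.mem_union.mp hj with h | h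
      · exact Finset.card_le_one.mp hX j h k hk
      · rw [hkl]
        exact Finset.card_le_one.mp hY j h l hl
    have := Finset.card_le_card hsub
    simp at this
    omega
  rcases vec_local n C (Nat.find hex) with ⟨j, h⟩ | h | ⟨x, y, hx, hy, h⟩ |
      ⟨x, y, hx, hy, h⟩ | ⟨c, x, hx, h⟩
  · exfalso
    rw [h] at hspec
    have hsub : supp (res S (Pi.single j 1 : Fin n → ℂ)) ⊆ {j} := by
      intro k hk
      rw [Finset.mem_singleton]
      rw [mem_supp, res_apply] at hk
      by_contra hkj
      apply hk
      simp [hkj]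
    have := Finset.card_le_card hsub
    simp at this
    omega
  · exfalso
    rw [h, res_zero, supp_zero] at hspec
    simp at hspec
  · rw [h, res_add] at hspec
    have h2 := (Finset.card_le_card (supp_add (res S x) (res S y)))
    obtain ⟨k, l, hk, hl, hkl, hX, hY⟩ := hmain (res S x) (res S y) (hprev x hx) (hprev y hy)
      (by omega)
    refine ⟨k, l, hmemS x k hk, hmemS y l hl, hkl, Nat.find hex, res S x k, res S y l,
      (mem_supp _ _).mp hk, (mem_supp _ _).mp hl, ?_⟩
    rw [h, res_add]
    nth_rewrite 1 [hX]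
    nth_rewrite 1 [hY]
    rfl
  · rw [h, res_sub] at hspec
    have h2 := (Finset.card_le_card (supp_sub (res S x) (res S y)))
    obtain ⟨k, l, hk, hl, hkl, hX, hY⟩ := hmain (res S x) (res S y) (hprev x hx) (hprev y hy)
      (by omega)
    refine ⟨k, l, hmemS x k hk, hmemS y l hl, hkl, Nat.find hex, res S x k, -(res S y l),
      (mem_supp _ _).mp hk, neg_ne_zero.mpr ((mem_supp _ _).mp hl), ?_⟩
    rw [h, res_sub]
    nth_rewrite 1 [hX]
    nth_rewrite 1 [hY]
    rw [neg_smul, sub_eq_add_neg]
  · exfalso
    rw [h, res_smul] at hspec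
    have h2 := Finset.card_le_card (supp_smul c (res S x))
    have h3 := hprev x hx
    omega

theorem class_bound (n : ℕ) (C : List Gate) (p q : ℕ) :
    ∀ (m : ℕ) (S : Finset (Fin n)), S.card = m + 1 →
      (∀ k ∈ S, vec n C p k ≠ 0 ∧ vec n C q k ≠ 0) →
      (∀ k ∈ S, ∀ l ∈ S, k ≠ l → vec n C p k * vec n C q l ≠ vec n C p l * vec n C q k) →
      3 * S.card ≤ (Cl n C S).card + 2 := by
  intro m
  induction m with
  | zero =>
    intro S hS _ _
    obtain ⟨k, rfl⟩ := Finset.card_eq_one.mp hS
    have := Finset.card_pos.mpr ⟨_, single_mem_Cl n C {k} k (Finset.mem_singleton_self k)⟩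
    rw [Finset.card_singleton]
    omega
  | succ m ih =>
    intro S hS hfull hratio
    have hsupp : supp (res S (vec n C p)) = S := by
      ext k
      rw [mem_supp, res_apply]
      by_cases hk : k ∈ S
      · simp [hk, (hfull k hk).1]
      · simp [hk]
    obtain ⟨k, l, hk, hl, hkl, i₀, α, β, hα, hβ, hp₀⟩ :=
      exists_pair n C S p (by rw [hsupp, hS]; omega)
    have hp₀k : (α • (Pi.single k 1 : Fin n → ℂ) + β • (Pi.single l 1 : Fin n → ℂ)) k = α := by
      simp [Pi.single_apply, hkl]
    have hp₀l : (α • (Pi.single k 1 : Fin n → ℂ) + β • (Pi.single l 1 : Fin n → ℂ)) l = β := by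
      simp [Pi.single_apply, Ne.symm hkl]
    have hp₀ne : α • (Pi.single k 1 : Fin n → ℂ) + β • (Pi.single l 1 : Fin n → ℂ) ≠ 0 := by
      intro h
      have := congrFun h k
      rw [hp₀k] at this
      exact hα this
    have hp₀mem : nf (α • (Pi.single k 1 : Fin n → ℂ) + β • (Pi.single l 1 : Fin n → ℂ))
        ∈ Cl n C S := by
      rw [mem_Cl]
      exact ⟨i₀, by rw [hp₀]; exact hp₀ne, by rw [hp₀]⟩
    have hx₀k : nf (α • (Pi.single k 1 : Fin n → ℂ) + β • (Pi.single l 1 : Fin n → ℂ))
        ≠ nf (Pi.single k 1 : Fin n → ℂ) := by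
      intro h
      obtain ⟨c, _, h1⟩ := (nf_eq_nf_iff _ _).mp h.symm
      have := congrFun h1 l
      rw [hp₀l] at this
      simp [Pi.single_apply, Ne.symm hkl] at this
      exact hβ this
    have hx₀l : nf (α • (Pi.single k 1 : Fin n → ℂ) + β • (Pi.single l 1 : Fin n → ℂ))
        ≠ nf (Pi.single l 1 : Fin n → ℂ) := by
      intro h
      obtain ⟨c, _, h1⟩ := (nf_eq_nf_iff _ _).mp h.symm
      have := congrFun h1 k
      rw [hp₀k] at this
      simp [Pi.single_apply, hkl] at this
      exact hα this
    have hlk : nf (Pi.single l 1 : Fin n → ℂ) ≠ nf (Pi.single k 1 : Fin n → ℂ) := by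
      intro h
      obtain ⟨c, _, h1⟩ := (nf_eq_nf_iff _ _).mp h
      have := congrFun h1 k
      simp [Pi.single_apply, hkl] at this
    have hfk : nf (res (S.erase k)
        (nf (α • (Pi.single k 1 : Fin n → ℂ) + β • (Pi.single l 1 : Fin n → ℂ))))
        = nf (res (S.erase k) (nf (Pi.single l 1 : Fin n → ℂ))) := by
      rw [nf_res_nf, nf_res_nf, res_add, res_smul, res_smul, res_erase_single_self, smul_zero,
        zero_add, nf_smul hβ]
    have hfl : nf (res (S.erase l)
        (nf (α • (Pi.single k 1 : Fin n → ℂ) + β • (Pi.single l 1 : Fin n → ℂ))))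
        = nf (res (S.erase l) (nf (Pi.single k 1 : Fin n → ℂ))) := by
      rw [nf_res_nf, nf_res_nf, res_add, res_smul, res_smul, res_erase_single_self, smul_zero,
        add_zero, nf_smul hα]
    rcases merge_dichotomy n C S k hk _ _ hp₀mem (single_mem_Cl n C S l hl) hx₀k hlk hx₀l hfk
      with h | hk'
    · have h2 := ih (S.erase k) (by rw [Finset.card_erase_of_mem hk, hS]; rfl)
        (fun j hj => hfull j (Finset.mem_of_mem_erase hj))
        (fun j hj j' hj' => hratio j (Finset.mem_of_mem_erase hj) j' (Finset.mem_of_mem_erase hj'))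
      rw [Finset.card_erase_of_mem hk] at h2
      omega
    · rcases merge_dichotomy n C S l hl _ _ hp₀mem (single_mem_Cl n C S k hk) hx₀l
        (Ne.symm hlk) hx₀k hfl with h | hl'
      · have h2 := ih (S.erase l) (by rw [Finset.card_erase_of_mem hl, hS]; rfl)
          (fun j hj => hfull j (Finset.mem_of_mem_erase hj))
          (fun j hj j' hj' => hratio j (Finset.mem_of_mem_erase hj) j'
            (Finset.mem_of_mem_erase hj'))
        rw [Finset.card_erase_of_mem hl] at h2
        omega
      · exfalso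
        have hJ := JJ_all n C S k l hk hl hkl α β hk' hl'
        have key : ∀ r, vec n C r k ≠ 0 → vec n C r l ≠ 0 →
            JJ k l α β (res S (vec n C r)) → vec n C r k * β = vec n C r l * α := by
          rintro r h1 h2 (⟨c, h⟩ | ⟨c, h⟩ | h)
          · exfalso
            have := congrFun h l
            simp [res_apply, hl, Pi.single_apply, Ne.symm hkl] at this
            exact h2 this
          · exfalso
            have := congrFun h k
            simp [res_apply, hk, Pi.single_apply, hkl] at this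
            exact h1 this
          · simpa [res_apply, hk, hl] using h
        have e1 := key p (hfull k hk).1 (hfull l hl).1 (hJ p)
        have e2 := key q (hfull k hk).2 (hfull l hl).2 (hJ q)
        apply hratio k hk l hl hkl
        apply mul_left_cancel₀ hα
        linear_combination (vec n C q k) * e1 - (vec n C p k) * e2

/-- Two computed vectors with full support and pairwise distinct coordinate ratios force at
least `2 n - 2` addition and subtraction gates. -/
theorem two_row_bound (n : ℕ) (hn : 1 ≤ n) (C : List Gate) (p q : ℕ)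
    (hfull : ∀ k : Fin n, vec n C p k ≠ 0 ∧ vec n C q k ≠ 0)
    (hratio : ∀ k l : Fin n, k ≠ l → vec n C p k * vec n C q l ≠ vec n C p l * vec n C q k) :
    2 * n ≤ C.countP Gate.isAddSub + 2 := by
  have h1 := class_bound n C p q (n - 1) Finset.univ (by simp; omega) (fun k _ => hfull k)
    (fun k _ l _ => hratio k l)
  have h2 := card_Cl_le n C Finset.univ
  simp only [Finset.card_univ, Fintype.card_fin] at h1
  omega

end Vale.Agent.Lib.P344
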