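import Mathlib
import Vale.Agent.Lib.P344.TwoRow

namespace Vale.Agent.Lib.P344

open Finset

theorem row_apply (n : ℕ) (j k : Fin n) : row n j k = zeta n ^ ((j : ℕ) * (k : ℕ)) := rfl

/-- For every output row there is an addition or subtraction gate computing a nonzero multiple
of that row, and distinct rows get distinct gates. -/
theorem exists_class_gates (n : ℕ) (hn : 2 ≤ n) (C : List Gate) (out : Fin n → ℕ)
    (hC : ∀ x : Fin n → ℂ, ∀ j : Fin n, (eval C x).getD (out j) 0
        = ∑ k : Fin n, Complex.exp (2 * Real.pi * Complex.I / n) ^ ((j : ℕ) * (k : ℕ)) * x k) :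
    ∃ (m : Fin n → ℕ) (d : Fin n → ℂ), Function.Injective m ∧
      ∀ j, m j ∈ anc n C (m j) ∧ d j ≠ 0 ∧ vec n C (m j) = d j • row n j := by
  classical
  have hζ : IsPrimitiveRoot (zeta n) n := Complex.isPrimitiveRoot_exp n (by omega)
  have hrow : ∀ j, vec n C (out j) = row n j := vec_out n C out hC
  have hfull : ∀ j, supp (row n j) = Finset.univ := by
    intro j
    ext k
    simp only [mem_supp, Finset.mem_univ, iff_true, row]
    exact pow_ne_zero _ (hζ.ne_zero (by omega))
  have hm : ∀ j : Fin n, ∃ m, m ≤ out j ∧ m ∈ anc n C m ∧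
      ∃ c : ℂ, c ≠ 0 ∧ vec n C (out j) = c • vec n C m :=
    fun j => exists_top n hn C (out j) (by rw [hrow]; exact hfull j)
  choose m hm1 hm2 c hc hm3 using hm
  have hmvec : ∀ j, vec n C (m j) = (c j)⁻¹ • row n j := by
    intro j
    rw [← hrow, hm3, smul_smul, inv_mul_cancel₀ (hc j), one_smul]
  refine ⟨m, fun j => (c j)⁻¹, ?_, fun j => ⟨hm2 j, inv_ne_zero (hc j), hmvec j⟩⟩
  intro j j' h
  have e : row n j = (c j * (c j')⁻¹) • row n j' := by
    have e1 := hmvec j
    rw [h, hmvec j'] at e1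
    have e2 : row n j = c j • ((c j)⁻¹ • row n j) := by
      rw [smul_smul, mul_inv_cancel₀ (hc j), one_smul]
    rw [e2, ← e1, smul_smul]
  have e0 := congrFun e ⟨0, by omega⟩
  have e1 := congrFun e ⟨1, by omega⟩
  simp only [row, Pi.smul_apply, smul_eq_mul, mul_zero, pow_zero, mul_one] at e0 e1
  rw [← e0, one_mul] at e1
  exact Fin.ext (hζ.pow_inj j.isLt j'.isLt e1)

theorem row_ratio (n : ℕ) (hn : 2 ≤ n) (j₁ j : Fin n) (a : ℕ) (ha : Nat.Coprime n a)
    (hj : (j : ℕ) = (a + (j₁ : ℕ)) % n) (k l : Fin n) (hkl : k ≠ l) :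
    row n j₁ k * row n j l ≠ row n j₁ l * row n j k := by
  have hζ : IsPrimitiveRoot (zeta n) n := Complex.isPrimitiveRoot_exp n (by omega)
  have hord : orderOf (zeta n) = n := hζ.eq_orderOf.symm
  have hj' : ∀ t : ℕ, zeta n ^ ((j : ℕ) * t) = zeta n ^ ((a + (j₁ : ℕ)) * t) := by
    intro t
    rw [pow_mul, pow_mul, hj]
    congr 1
    have := pow_mod_orderOf (zeta n) (a + (j₁ : ℕ))
    rwa [hord] at this
  intro h
  simp only [row_apply] at h
  rw [hj' l, hj' k, ← pow_add, ← pow_add] at h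
  have h2 := (hζ.isOfFinOrder (by omega)).pow_eq_pow_iff_modEq.mp h
  rw [hord] at h2
  have h3 : a * (l : ℕ) ≡ a * (k : ℕ) [MOD n] := by
    apply Nat.ModEq.add_left_cancel' ((j₁ : ℕ) * (k : ℕ) + (j₁ : ℕ) * (l : ℕ))
    have e1 : (j₁ : ℕ) * (k : ℕ) + (j₁ : ℕ) * (l : ℕ) + a * (l : ℕ)
        = (j₁ : ℕ) * (k : ℕ) + (a + (j₁ : ℕ)) * (l : ℕ) := by ring
    have e2 : (j₁ : ℕ) * (k : ℕ) + (j₁ : ℕ) * (l : ℕ) + a * (k : ℕ)
        = (j₁ : ℕ) * (l : ℕ) + (a + (j₁ : ℕ)) * (k : ℕ) := by ring
    rw [e1, e2]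
    exact h2
  have h5 := Nat.ModEq.cancel_left_of_coprime ha h3
  have h6 := h5.eq_of_lt_of_lt l.isLt k.isLt
  exact hkl (Fin.ext h6.symm)

theorem addsub_count_bound2 (n : ℕ) (hn : 2 ≤ n) (C : List Gate) (out : Fin n → ℕ)
    (hC : ∀ x : Fin n → ℂ, ∀ j : Fin n, (eval C x).getD (out j) 0
        = ∑ k : Fin n, Complex.exp (2 * Real.pi * Complex.I / n) ^ ((j : ℕ) * (k : ℕ)) * x k) :
    2 * n + Nat.totient n ≤ C.countP Gate.isAddSub + 3 := by
  classical
  have hn0 : 0 < n := by omega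
  have hζ : IsPrimitiveRoot (zeta n) n := Complex.isPrimitiveRoot_exp n (by omega)
  have hζ0 : zeta n ≠ 0 := hζ.ne_zero (by omega)
  obtain ⟨m, d, hminj, hmd⟩ := exists_class_gates n hn C out hC
  obtain ⟨j₁, -, hj₁⟩ := Finset.exists_min_image Finset.univ m ⟨⟨0, hn0⟩, Finset.mem_univ _⟩
  have hUcard : (((Finset.range n).filter (Nat.Coprime n)).image
      (fun a => (⟨(a + (j₁ : ℕ)) % n, Nat.mod_lt _ hn0⟩ : Fin n))).card = Nat.totient n := by
    rw [Nat.totient_eq_card_coprime]
    apply Finset.card_image_of_injOn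
    intro a ha a' ha' h
    simp only [Finset.coe_filter, Finset.mem_range, Set.mem_ofPred_eq] at ha ha'
    have h1 : (a + (j₁ : ℕ)) % n = (a' + (j₁ : ℕ)) % n := congrArg Fin.val h
    exact (Nat.ModEq.add_right_cancel' (j₁ : ℕ) h1).eq_of_lt_of_lt ha.1 ha'.1
  have hUne : (((Finset.range n).filter (Nat.Coprime n)).image
      (fun a => (⟨(a + (j₁ : ℕ)) % n, Nat.mod_lt _ hn0⟩ : Fin n))).Nonempty := by
    rw [← Finset.card_pos, hUcard]
    exact Nat.totient_pos.mpr hn0
  obtain ⟨j', hj'U, hj'min⟩ := Finset.exists_min_image _ m hUne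
  obtain ⟨a, ha, hj'a⟩ := Finset.mem_image.mp hj'U
  rw [Finset.mem_filter, Finset.mem_range] at ha
  have hm1 := anc_le n C _ _ (hmd j').1
  have hm2 : n + 1 ≤ m j' := by
    by_contra hlt
    have h0 := anc_input n C (m j') (by omega)
    have h1 := (hmd j').1
    rw [h0] at h1
    simp at h1
  have hsle : m j' - n ≤ C.length := by omega
  have hlen : (C.take (m j' - n)).length = m j' - n := by
    rw [List.length_take]
    omega
  have hvec : ∀ i, i ≤ m j' → vec n (C.take (m j' - n)) i = vec n C i := by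
    intro i hi
    have := vec_append_left n (C.take (m j' - n)) (C.drop (m j' - n)) i (by rw [hlen]; omega)
    rw [List.take_append_drop] at this
    exact this.symm
  have h1 := two_row_bound n (by omega) (C.take (m j' - n)) (m j₁) (m j') ?_ ?_
  · obtain ⟨U₂, hU₂, hmem⟩ := exists_anc_bound_suffix n (C.take (m j' - n)) (C.drop (m j' - n))
    rw [List.take_append_drop, hlen] at hmem
    have hsub : ((((Finset.range n).filter (Nat.Coprime n)).image
        (fun a => (⟨(a + (j₁ : ℕ)) % n, Nat.mod_lt _ hn0⟩ : Fin n))).erase j').image m ⊆ U₂ := by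
      intro x hx
      obtain ⟨j'', hj'', rfl⟩ := Finset.mem_image.mp hx
      rw [Finset.mem_erase] at hj''
      have h3 := hj'min j'' hj''.2
      have h4 : m j'' ≠ m j' := fun h => hj''.1 (hminj h)
      exact hmem (m j'') (by omega) (hmd j'').1
    have hcard : (((((Finset.range n).filter (Nat.Coprime n)).image
        (fun a => (⟨(a + (j₁ : ℕ)) % n, Nat.mod_lt _ hn0⟩ : Fin n))).erase j').image m).card
        = Nat.totient n - 1 := by
      rw [Finset.card_image_of_injective _ hminj, Finset.card_erase_of_mem hj'U, hUcard]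
    have h5 := Finset.card_le_card hsub
    have h6 : C.countP Gate.isAddSub = (C.take (m j' - n)).countP Gate.isAddSub
        + (C.drop (m j' - n)).countP Gate.isAddSub := by
      rw [← List.countP_append, List.take_append_drop]
    have := Nat.totient_pos.mpr hn0
    omega
  · intro k
    rw [hvec _ (hj₁ j' (Finset.mem_univ _)), hvec _ le_rfl, (hmd j₁).2.2, (hmd j').2.2]
    simp only [Pi.smul_apply, smul_eq_mul, row_apply]
    exact ⟨mul_ne_zero (hmd j₁).2.1 (pow_ne_zero _ hζ0),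
      mul_ne_zero (hmd j').2.1 (pow_ne_zero _ hζ0)⟩
  · intro k l hkl
    rw [hvec _ (hj₁ j' (Finset.mem_univ _)), hvec _ le_rfl, (hmd j₁).2.2, (hmd j').2.2]
    simp only [Pi.smul_apply, smul_eq_mul]
    have hr := row_ratio n hn j₁ j' a ha.2 (by rw [← hj'a]) k l hkl
    intro h
    apply hr
    have hd : d j₁ * d j' ≠ 0 := mul_ne_zero (hmd j₁).2.1 (hmd j').2.1
    apply mul_left_cancel₀ hd
    linear_combination h

/-- Every linear circuit computing the Fourier matrix `F_n` has at least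
`3 n + φ(n) - d(n) - 3` gates. -/
theorem gate_count_bound2 (n : ℕ) (hn : 2 ≤ n) (C : List Gate) (out : Fin n → ℕ)
    (hC : ∀ x : Fin n → ℂ, ∀ j : Fin n, (eval C x).getD (out j) 0
        = ∑ k : Fin n, Complex.exp (2 * Real.pi * Complex.I / n) ^ ((j : ℕ) * (k : ℕ)) * x k) :
    3 * n + Nat.totient n ≤ C.length + (Nat.divisors n).card + 3 := by
  have h1 := smul_count_bound n (by omega) C out hC
  have h2 := addsub_count_bound2 n hn C out hC
  have h3 : C.length = C.countP Gate.isSmul + C.countP Gate.isAddSub := by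
    rw [List.length_eq_countP_add_countP Gate.isSmul]
    congr 1
    apply List.countP_congr
    intro g _
    cases g <;> simp [Gate.isSmul, Gate.isAddSub]
  omega

end Vale.Agent.Lib.P344
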