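import Mathlib
import Vale.Agent.Lib.P344.TwoRow

namespace Vale.Agent.Lib.P344

open Finset

/-- Rows of the Fourier matrix indexed by residues modulo `n`. -/
noncomputable def rowZ (n : ℕ) (a : ZMod n) : Fin n → ℂ :=
  fun k => zeta n ^ (a.val * (k : ℕ))

theorem zeta_isPrimitiveRoot (n : ℕ) [NeZero n] : IsPrimitiveRoot (zeta n) n :=
  Complex.isPrimitiveRoot_exp n (NeZero.ne n)

theorem zeta_ne_zero (n : ℕ) [NeZero n] : zeta n ≠ 0 :=
  (zeta_isPrimitiveRoot n).ne_zero (NeZero.ne n)

theorem zeta_pow_mod (n : ℕ) [NeZero n] (x : ℕ) : zeta n ^ (x % n) = zeta n ^ x := by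
  have hord : orderOf (zeta n) = n := (zeta_isPrimitiveRoot n).eq_orderOf.symm
  have := pow_mod_orderOf (zeta n) x
  rwa [hord] at this

theorem rowZ_ne_zero (n : ℕ) [NeZero n] (a : ZMod n) (k : Fin n) : rowZ n a k ≠ 0 :=
  pow_ne_zero _ (zeta_ne_zero n)

theorem rowZ_add (n : ℕ) [NeZero n] (a b : ZMod n) (k : Fin n) :
    rowZ n (a + b) k = rowZ n a k * rowZ n b k := by
  unfold rowZ
  rw [ZMod.val_add, pow_mul, zeta_pow_mod, ← pow_mul, ← pow_add]
  congr 1
  ring

theorem rowZ_zero (n : ℕ) [NeZero n] (k : Fin n) : rowZ n 0 k = 1 := by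
  unfold rowZ
  rw [ZMod.val_zero, zero_mul, pow_zero]

theorem rowZ_natCast (n : ℕ) (j : Fin n) : rowZ n ((j : ℕ) : ZMod n) = row n j := by
  funext k
  unfold rowZ row
  rw [ZMod.val_natCast_of_lt j.isLt]

/-- The residues `δ` for which the character `k ↦ ζ^(δ k)` is constant on `S`. -/
noncomputable def EE (n : ℕ) [NeZero n] (S : Finset (Fin n)) : AddSubgroup (ZMod n) where
  carrier := {δ | ∀ i ∈ S, ∀ i' ∈ S, rowZ n δ i = rowZ n δ i'}
  add_mem' := by
    intro a b ha hb i hi i' hi'
    rw [rowZ_add, rowZ_add, ha i hi i' hi', hb i hi i' hi']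
  zero_mem' := by
    intro i _ i' _
    rw [rowZ_zero, rowZ_zero]
  neg_mem' := by
    intro a ha i hi i' hi'
    have h1 : rowZ n (-a) i * rowZ n a i = 1 := by
      rw [← rowZ_add, neg_add_cancel, rowZ_zero]
    have h2 : rowZ n (-a) i' * rowZ n a i' = 1 := by
      rw [← rowZ_add, neg_add_cancel, rowZ_zero]
    rw [ha i hi i' hi'] at h1
    exact mul_right_cancel₀ (rowZ_ne_zero n a i') (h1.trans h2.symm)

theorem mem_EE (n : ℕ) [NeZero n] (S : Finset (Fin n)) (δ : ZMod n) :
    δ ∈ EE n S ↔ ∀ i ∈ S, ∀ i' ∈ S, rowZ n δ i = rowZ n δ i' := Iff.rfl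

theorem class_eq_iff (n : ℕ) [NeZero n] (S : Finset (Fin n)) (a b : ZMod n) :
    nf (res S (rowZ n a)) = nf (res S (rowZ n b)) ↔ b - a ∈ EE n S := by
  have hsub : ∀ i : Fin n, rowZ n b i = rowZ n (b - a) i * rowZ n a i := by
    intro i
    rw [← rowZ_add, sub_add_cancel]
  constructor
  · intro h
    obtain ⟨c, hc, h1⟩ := (nf_eq_nf_iff _ _).mp h
    rw [mem_EE]
    have key : ∀ i ∈ S, rowZ n (b - a) i = c := by
      intro i hi
      have h2 := congrFun h1 i
      simp only [res_apply, if_pos hi, Pi.smul_apply, smul_eq_mul] at h2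
      rw [hsub i] at h2
      exact mul_right_cancel₀ (rowZ_ne_zero n a i) h2
    intro i hi i' hi'
    rw [key i hi, key i' hi']
  · intro h
    rw [mem_EE] at h
    rcases S.eq_empty_or_nonempty with hS | ⟨i₀, hi₀⟩
    · have e : ∀ w : Fin n → ℂ, res S w = 0 := by
        intro w
        funext k
        simp [res_apply, hS]
      rw [e, e]
    · rw [nf_eq_nf_iff]
      refine ⟨rowZ n (b - a) i₀, rowZ_ne_zero n _ _, ?_⟩
      funext i
      simp only [res_apply, Pi.smul_apply, smul_eq_mul]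
      by_cases hi : i ∈ S
      · rw [if_pos hi, if_pos hi, hsub i, h i hi i₀ hi₀]
      · rw [if_neg hi, if_neg hi, mul_zero]

/-- The number of classes of rows restricted to `S`. -/
noncomputable def rho (n : ℕ) [NeZero n] (S : Finset (Fin n)) : ℕ := (EE n S).index

theorem rho_ne_zero (n : ℕ) [NeZero n] (S : Finset (Fin n)) : rho n S ≠ 0 :=
  AddSubgroup.index_ne_zero_of_finite

theorem rho_dvd (n : ℕ) [NeZero n] (S : Finset (Fin n)) (k : Fin n) :
    rho n (S.erase k) ∣ rho n S := by
  apply AddSubgroup.index_dvd_of_le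
  intro δ hδ
  rw [mem_EE] at hδ ⊢
  intro i hi i' hi'
  exact hδ i (Finset.mem_of_mem_erase hi) i' (Finset.mem_of_mem_erase hi')

theorem rowZ_one (n : ℕ) (hn : 2 ≤ n) (k : Fin n) : rowZ n 1 k = zeta n ^ (k : ℕ) := by
  have : Fact (1 < n) := ⟨by omega⟩
  unfold rowZ
  rw [ZMod.val_one, one_mul]

theorem rho_univ (n : ℕ) [NeZero n] (hn : 2 ≤ n) : rho n (Finset.univ : Finset (Fin n)) = n := by
  have h : EE n (Finset.univ : Finset (Fin n)) = ⊥ := by
    rw [eq_bot_iff]
    intro δ hδ
    rw [mem_EE] at hδ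
    have h1 := hδ ⟨0, by omega⟩ (Finset.mem_univ _) ⟨1, by omega⟩ (Finset.mem_univ _)
    unfold rowZ at h1
    simp only [mul_zero, pow_zero, mul_one] at h1
    have h2 := (zeta_isPrimitiveRoot n).pow_inj (by omega : 0 < n) (ZMod.val_lt δ)
      (by rw [pow_zero]; exact h1)
    rw [AddSubgroup.mem_bot]
    exact (ZMod.val_eq_zero δ).mp h2.symm
  unfold rho
  rw [h, AddSubgroup.index_bot, Nat.card_zmod]

theorem two_le_rho (n : ℕ) [NeZero n] (hn : 2 ≤ n) (S : Finset (Fin n)) (k l : Fin n)
    (hk : k ∈ S) (hl : l ∈ S) (hkl : k ≠ l) : 2 ≤ rho n S := by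
  have h1 : rho n S ≠ 1 := by
    unfold rho
    rw [Ne, AddSubgroup.index_eq_one]
    intro htop
    have h : (1 : ZMod n) ∈ EE n S := by
      rw [htop]
      exact AddSubgroup.mem_top _
    rw [mem_EE] at h
    have h2 := h k hk l hl
    rw [rowZ_one n hn, rowZ_one n hn] at h2
    exact hkl (Fin.ext ((zeta_isPrimitiveRoot n).pow_inj k.isLt l.isLt h2))
  have h0 := rho_ne_zero n S
  omega

open Classical in
/-- The classes of the rows restricted to `S`. -/
noncomputable def rowCl (n : ℕ) (S : Finset (Fin n)) : Finset (Fin n → ℂ) :=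
  Finset.univ.image (fun j : Fin n => nf (res S (row n j)))

theorem card_rowCl (n : ℕ) [NeZero n] (S : Finset (Fin n)) : (rowCl n S).card = rho n S := by
  classical
  let f : ZMod n → (Fin n → ℂ) := fun a => nf (res S (rowZ n a))
  have hf : ∀ a b : ZMod n, f a = f b ↔
      (QuotientAddGroup.mk a : ZMod n ⧸ EE n S) = QuotientAddGroup.mk b := by
    intro a b
    rw [QuotientAddGroup.eq, class_eq_iff, neg_add_eq_sub]
  let g : ZMod n ⧸ EE n S → (Fin n → ℂ) :=
    Quotient.lift f (fun a b hab => by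
      rw [hf]
      exact Quotient.sound hab)
  have hg : ∀ a : ZMod n, g (QuotientAddGroup.mk a) = f a := fun a => rfl
  have hginj : Function.Injective g := by
    intro x y hxy
    induction x using QuotientAddGroup.induction_on with
    | H a =>
      induction y using QuotientAddGroup.induction_on with
      | H b =>
        rw [hg, hg] at hxy
        exact (hf a b).mp hxy
  have himage : rowCl n S = Finset.univ.image g := by
    ext x
    unfold rowCl
    simp only [Finset.mem_image, Finset.mem_univ, true_and]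
    constructor
    · rintro ⟨j, rfl⟩
      refine ⟨QuotientAddGroup.mk ((j : ℕ) : ZMod n), ?_⟩
      rw [hg]
      show nf (res S (rowZ n ((j : ℕ) : ZMod n))) = _
      rw [rowZ_natCast]
    · rintro ⟨q, rfl⟩
      induction q using QuotientAddGroup.induction_on with
      | H a =>
        refine ⟨⟨a.val, ZMod.val_lt a⟩, ?_⟩
        rw [hg]
        show _ = nf (res S (rowZ n a))
        rw [← rowZ_natCast]
        simp only [ZMod.natCast_zmod_val]
  rw [himage, Finset.card_image_of_injective _ hginj, Finset.card_univ]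
  unfold rho
  rw [AddSubgroup.index_eq_card, Nat.card_eq_fintype_card]

end Vale.Agent.Lib.P344
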