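import Mathlib
import Vale.Agent.Lib.P344.RowGroup

namespace Vale.Agent.Lib.P344

open Finset

theorem row_ne_zero' (n : ℕ) [NeZero n] (j k : Fin n) : row n j k ≠ 0 :=
  pow_ne_zero _ (zeta_ne_zero n)

theorem nf_apply_eq_zero_iff {n : ℕ} (w : Fin n → ℂ) (k : Fin n) : nf w k = 0 ↔ w k = 0 := by
  obtain ⟨c, hc, h⟩ := nf_spec w
  rw [h]
  simp [hc]

theorem rowCl_apply_ne_zero (n : ℕ) [NeZero n] (S : Finset (Fin n)) (x : Fin n → ℂ)
    (hx : x ∈ rowCl n S) (k : Fin n) (hk : k ∈ S) : x k ≠ 0 := by
  classical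
  unfold rowCl at hx
  obtain ⟨j, -, rfl⟩ := Finset.mem_image.mp hx
  rw [Ne, nf_apply_eq_zero_iff, res_apply, if_pos hk]
  exact row_ne_zero' n j k

theorem rowCl_subset_Cl (n : ℕ) [NeZero n] (C : List Gate) (out : Fin n → ℕ)
    (hC : ∀ x : Fin n → ℂ, ∀ j : Fin n, (eval C x).getD (out j) 0
        = ∑ k : Fin n, Complex.exp (2 * Real.pi * Complex.I / n) ^ ((j : ℕ) * (k : ℕ)) * x k)
    (S : Finset (Fin n)) (hS : S.Nonempty) : rowCl n S ⊆ Cl n C S := by
  classical
  intro x hx
  unfold rowCl at hx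
  obtain ⟨j, -, rfl⟩ := Finset.mem_image.mp hx
  rw [mem_Cl]
  refine ⟨out j, ?_, ?_⟩
  · rw [vec_out n C out hC j]
    intro h0
    obtain ⟨k, hk⟩ := hS
    have := congrFun h0 k
    rw [res_apply, if_pos hk] at this
    exact row_ne_zero' n j k this
  · rw [vec_out n C out hC j]

theorem nf_single_apply_of_ne {n : ℕ} (k m : Fin n) (h : m ≠ k) :
    nf (Pi.single k 1 : Fin n → ℂ) m = 0 := by
  rw [nf_apply_eq_zero_iff]
  simp [h]

theorem nf_pair_apply_of_ne {n : ℕ} (k l m : Fin n) (α β : ℂ) (hk : m ≠ k) (hl : m ≠ l) :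
    nf (α • (Pi.single k 1 : Fin n → ℂ) + β • (Pi.single l 1 : Fin n → ℂ)) m = 0 := by
  rw [nf_apply_eq_zero_iff]
  simp [hk, hl]

theorem nf_pair_apply_left {n : ℕ} (k l : Fin n) (α β : ℂ) (hkl : k ≠ l) (hα : α ≠ 0) :
    nf (α • (Pi.single k 1 : Fin n → ℂ) + β • (Pi.single l 1 : Fin n → ℂ)) k ≠ 0 := by
  rw [Ne, nf_apply_eq_zero_iff]
  simp [hkl, hα]

theorem nf_pair_apply_right {n : ℕ} (k l : Fin n) (α β : ℂ) (hkl : k ≠ l) (hβ : β ≠ 0) :
    nf (α • (Pi.single k 1 : Fin n → ℂ) + β • (Pi.single l 1 : Fin n → ℂ)) l ≠ 0 := by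
  rw [Ne, nf_apply_eq_zero_iff]
  simp [Ne.symm hkl, hβ]

theorem card_image_loss {α β : Type*} [DecidableEq α] [DecidableEq β] (F A : Finset α)
    (f : α → β) (hA : A ⊆ F) : (F.image f).card + A.card ≤ (A.image f).card + F.card := by
  have h1 : F = A ∪ (F \ A) := (Finset.union_sdiff_of_subset hA).symm
  have h2 : (F.image f).card ≤ (A.image f).card + ((F \ A).image f).card := by
    conv_lhs => rw [h1, Finset.image_union]
    exact Finset.card_union_le _ _
  have h3 : ((F \ A).image f).card ≤ (F \ A).card := Finset.card_image_le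
  have h4 : (F \ A).card + A.card = F.card := Finset.card_sdiff_add_card_eq_card hA
  omega

/-- The loss of classes when coordinate `k` is deleted, in terms of the row classes. -/
theorem step_rho (n : ℕ) [NeZero n] (C : List Gate) (out : Fin n → ℕ)
    (hC : ∀ x : Fin n → ℂ, ∀ j : Fin n, (eval C x).getD (out j) 0
        = ∑ k : Fin n, Complex.exp (2 * Real.pi * Complex.I / n) ^ ((j : ℕ) * (k : ℕ)) * x k)
    (S : Finset (Fin n)) (k l m : Fin n) (hk : k ∈ S) (hl : l ∈ S) (hm : m ∈ S)
    (hkl : k ≠ l) (hmk : m ≠ k) (hml : m ≠ l) (α β : ℂ) (hα : α ≠ 0) (hβ : β ≠ 0)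
    (hx₀ : nf (α • (Pi.single k 1 : Fin n → ℂ) + β • (Pi.single l 1 : Fin n → ℂ)) ∈ Cl n C S) :
    (Cl n C (S.erase k)).card + 2 + rho n S ≤ (Cl n C S).card + rho n (S.erase k) := by
  classical
  set x₀ := nf (α • (Pi.single k 1 : Fin n → ℂ) + β • (Pi.single l 1 : Fin n → ℂ)) with hx₀def
  set ek := nf (Pi.single k 1 : Fin n → ℂ) with hekdef
  set el := nf (Pi.single l 1 : Fin n → ℂ) with heldef
  set F := (Cl n C S).erase ek with hF
  set f : (Fin n → ℂ) → (Fin n → ℂ) := fun x => nf (res (S.erase k) x) with hf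
  have himg : F.image f = Cl n C (S.erase k) := image_res_erase n C S k hk
  have hSne : S.Nonempty := ⟨k, hk⟩
  have hrowsub := rowCl_subset_Cl n C out hC S hSne
  -- the subfamily
  set A := insert x₀ (insert el (rowCl n S)) with hA
  have hx₀row : x₀ ∉ rowCl n S := fun h =>
    rowCl_apply_ne_zero n S x₀ h m hm (nf_pair_apply_of_ne k l m α β hmk hml)
  have helrow : el ∉ rowCl n S := fun h =>
    rowCl_apply_ne_zero n S el h m hm (nf_single_apply_of_ne l m hml)
  have hx₀el : x₀ ≠ el := by
    intro h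
    have h1 := nf_pair_apply_left k l α β hkl hα
    rw [← hx₀def, h] at h1
    exact h1 (nf_single_apply_of_ne l k hkl)
  have hAcard : A.card = rho n S + 2 := by
    rw [hA, Finset.card_insert_of_notMem, Finset.card_insert_of_notMem helrow, card_rowCl]
    rw [Finset.mem_insert]
    rintro (h | h)
    · exact hx₀el h
    · exact hx₀row h
  have hAF : A ⊆ F := by
    intro x hx
    rw [hA, Finset.mem_insert, Finset.mem_insert] at hx
    rw [hF, Finset.mem_erase]
    rcases hx with rfl | rfl | hx
    · refine ⟨?_, hx₀⟩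
      intro h
      have h1 := nf_pair_apply_right k l α β hkl hβ
      rw [← hx₀def, h] at h1
      exact h1 (nf_single_apply_of_ne k l (Ne.symm hkl))
    · refine ⟨?_, single_mem_Cl n C S l hl⟩
      intro h
      have h1 : el l ≠ 0 := by
        rw [heldef, Ne, nf_apply_eq_zero_iff]
        simp
      rw [h] at h1
      exact h1 (nf_single_apply_of_ne k l (Ne.symm hkl))
    · refine ⟨?_, hrowsub hx⟩
      intro h
      have h1 := rowCl_apply_ne_zero n S x hx l hl
      rw [h] at h1
      exact h1 (nf_single_apply_of_ne k l (Ne.symm hkl))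
  have hfx₀ : f x₀ = nf (res (S.erase k) (Pi.single l 1 : Fin n → ℂ)) := by
    rw [hf, hx₀def]
    simp only
    rw [nf_res_nf, res_add, res_smul, res_smul, res_erase_single_self, smul_zero, zero_add,
      nf_smul hβ]
  have hfel : f el = nf (res (S.erase k) (Pi.single l 1 : Fin n → ℂ)) := by
    rw [hf, heldef]
    simp only
    rw [nf_res_nf]
  have hfA : A.image f ⊆ insert (nf (res (S.erase k) (Pi.single l 1 : Fin n → ℂ)))
      (rowCl n (S.erase k)) := by
    intro y hy
    obtain ⟨x, hx, rfl⟩ := Finset.mem_image.mp hy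
    rw [hA, Finset.mem_insert, Finset.mem_insert] at hx
    rw [Finset.mem_insert]
    rcases hx with rfl | rfl | hx
    · exact Or.inl hfx₀
    · exact Or.inl hfel
    · right
      unfold rowCl at hx ⊢
      obtain ⟨j, -, rfl⟩ := Finset.mem_image.mp hx
      rw [Finset.mem_image]
      refine ⟨j, Finset.mem_univ _, ?_⟩
      rw [hf]
      simp only
      rw [nf_res_nf, res_res_erase]
  have hfAcard : (A.image f).card ≤ rho n (S.erase k) + 1 := by
    have h1 := Finset.card_le_card hfA
    have h2 := Finset.card_insert_le (nf (res (S.erase k) (Pi.single l 1 : Fin n → ℂ)))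
      (rowCl n (S.erase k))
    rw [card_rowCl] at h2
    omega
  have hloss := card_image_loss F A f hAF
  rw [himg] at hloss
  have hFcard : F.card + 1 = (Cl n C S).card := by
    rw [hF, Finset.card_erase_of_mem (single_mem_Cl n C S k hk)]
    have := Finset.card_pos.mpr ⟨_, single_mem_Cl n C S k hk⟩
    omega
  omega

theorem bottom_rho (n : ℕ) [NeZero n] (C : List Gate) (out : Fin n → ℕ)
    (hC : ∀ x : Fin n → ℂ, ∀ j : Fin n, (eval C x).getD (out j) 0
        = ∑ k : Fin n, Complex.exp (2 * Real.pi * Complex.I / n) ^ ((j : ℕ) * (k : ℕ)) * x k)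
    (S : Finset (Fin n)) (k l : Fin n) (hk : k ∈ S) (hl : l ∈ S) (hkl : k ≠ l) :
    rho n S + 2 ≤ (Cl n C S).card := by
  classical
  have hrowsub := rowCl_subset_Cl n C out hC S ⟨k, hk⟩
  have hekrow : nf (Pi.single k 1 : Fin n → ℂ) ∉ rowCl n S := fun h =>
    rowCl_apply_ne_zero n S _ h l hl (nf_single_apply_of_ne k l (Ne.symm hkl))
  have helrow : nf (Pi.single l 1 : Fin n → ℂ) ∉ rowCl n S := fun h =>
    rowCl_apply_ne_zero n S _ h k hk (nf_single_apply_of_ne l k hkl)
  have hne : nf (Pi.single k 1 : Fin n → ℂ) ≠ nf (Pi.single l 1 : Fin n → ℂ) := by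
    intro h
    have h1 : nf (Pi.single k 1 : Fin n → ℂ) k ≠ 0 := by
      rw [Ne, nf_apply_eq_zero_iff]
      simp
    rw [h] at h1
    exact h1 (nf_single_apply_of_ne l k hkl)
  have hsub : insert (nf (Pi.single k 1 : Fin n → ℂ))
      (insert (nf (Pi.single l 1 : Fin n → ℂ)) (rowCl n S)) ⊆ Cl n C S := by
    intro x hx
    rw [Finset.mem_insert, Finset.mem_insert] at hx
    rcases hx with rfl | rfl | hx
    · exact single_mem_Cl n C S k hk
    · exact single_mem_Cl n C S l hl
    · exact hrowsub hx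
  have hcard := Finset.card_le_card hsub
  rw [Finset.card_insert_of_notMem, Finset.card_insert_of_notMem helrow, card_rowCl] at hcard
  · omega
  · rw [Finset.mem_insert]
    rintro (h | h)
    · exact hne h
    · exact hekrow h

theorem omega_lt_of_dvd (a b : ℕ) (h : a ∣ b) (hb : b ≠ 0) (hne : a ≠ b) :
    a.primeFactorsList.length + 1 ≤ b.primeFactorsList.length := by
  obtain ⟨c, rfl⟩ := h
  have ha : a ≠ 0 := fun h0 => hb (by rw [h0, zero_mul])
  have hc : c ≠ 0 := fun h0 => hb (by rw [h0, mul_zero])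
  have hc1 : c ≠ 1 := fun h1 => hne (by rw [h1, mul_one])
  have hlen := (Nat.perm_primeFactorsList_mul ha hc).length_eq
  rw [List.length_append] at hlen
  have hcl : c.primeFactorsList ≠ [] := by
    rw [Ne, Nat.primeFactorsList_eq_nil]
    omega
  have := List.length_pos_iff.mpr hcl
  omega

theorem class_bound4 (n : ℕ) [NeZero n] (hn : 2 ≤ n) (C : List Gate) (out : Fin n → ℕ)
    (hC : ∀ x : Fin n → ℂ, ∀ j : Fin n, (eval C x).getD (out j) 0
        = ∑ k : Fin n, Complex.exp (2 * Real.pi * Complex.I / n) ^ ((j : ℕ) * (k : ℕ)) * x k) :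
    ∀ (m : ℕ) (S : Finset (Fin n)), S.card = m + 2 →
      3 * S.card + rho n S ≤ (Cl n C S).card + (rho n S).primeFactorsList.length + 3 := by
  classical
  have hζ := zeta_isPrimitiveRoot n
  set p := out ⟨0, by omega⟩ with hp
  set q := out ⟨1, by omega⟩ with hq
  have hvp : vec n C p = row n ⟨0, by omega⟩ := vec_out n C out hC _
  have hvq : vec n C q = row n ⟨1, by omega⟩ := vec_out n C out hC _
  have hfull : ∀ k : Fin n, vec n C p k ≠ 0 ∧ vec n C q k ≠ 0 := by
    intro k
    rw [hvp, hvq]
    exact ⟨row_ne_zero' n _ k, row_ne_zero' n _ k⟩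
  have hratio : ∀ k l : Fin n, k ≠ l →
      vec n C p k * vec n C q l ≠ vec n C p l * vec n C q k := by
    intro k l hkl
    rw [hvp, hvq]
    simp only [row, zero_mul, pow_zero, one_mul]
    intro h
    exact hkl (Fin.ext (hζ.pow_inj k.isLt l.isLt h.symm))
  intro m
  induction m with
  | zero =>
    intro S hS
    obtain ⟨k, l, hkl, rfl⟩ := Finset.card_eq_two.mp hS
    have hk : k ∈ ({k, l} : Finset (Fin n)) := by simp
    have hl : l ∈ ({k, l} : Finset (Fin n)) := by simp
    have h1 := bottom_rho n C out hC {k, l} k l hk hl hkl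
    have h2 := two_le_rho n hn {k, l} k l hk hl hkl
    have h3 : (rho n ({k, l} : Finset (Fin n))).primeFactorsList ≠ [] := by
      rw [Ne, Nat.primeFactorsList_eq_nil]
      omega
    have h4 := List.length_pos_iff.mpr h3
    rw [hS]
    omega
  | succ m ih =>
    intro S hS
    have hsupp : supp (res S (vec n C p)) = S := by
      ext k
      rw [mem_supp, res_apply]
      by_cases hk : k ∈ S
      · simp [hk, (hfull k).1]
      · simp [hk]
    obtain ⟨k, l, hk, hl, hkl, i₀, α, β, hα, hβ, hp₀⟩ :=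
      exists_pair n C S p (by rw [hsupp, hS]; omega)
    -- a third element of S
    have hthird : ∃ t ∈ S, t ≠ k ∧ t ≠ l := by
      have h1 : ((S.erase k).erase l).card = m + 1 := by
        rw [Finset.card_erase_of_mem (Finset.mem_erase.mpr ⟨Ne.symm hkl, hl⟩),
          Finset.card_erase_of_mem hk, hS]
        rfl
      have h2 : ((S.erase k).erase l).Nonempty := by
        rw [← Finset.card_pos, h1]
        omega
      obtain ⟨t, ht⟩ := h2
      rw [Finset.mem_erase, Finset.mem_erase] at ht
      exact ⟨t, ht.2.2, ht.2.1, ht.1⟩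
    obtain ⟨t, ht, htk, htl⟩ := hthird
    have hp₀k : (α • (Pi.single k 1 : Fin n → ℂ) + β • (Pi.single l 1 : Fin n → ℂ)) k = α := by
      simp [hkl]
    have hp₀l : (α • (Pi.single k 1 : Fin n → ℂ) + β • (Pi.single l 1 : Fin n → ℂ)) l = β := by
      simp [Ne.symm hkl]
    have hp₀ne : α • (Pi.single k 1 : Fin n → ℂ) + β • (Pi.single l 1 : Fin n → ℂ) ≠ 0 := by
      intro h
      have := congrFun h k
      rw [hp₀k] at this
      exact hα this
    have hp₀mem : nf (α • (Pi.single k 1 : Fin n → ℂ) + β • (Pi.single l 1 : Fin n → ℂ))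
        ∈ Cl n C S := by
      rw [mem_Cl]
      exact ⟨i₀, by rw [hp₀]; exact hp₀ne, by rw [hp₀]⟩
    have hp₀mem' : nf (β • (Pi.single l 1 : Fin n → ℂ) + α • (Pi.single k 1 : Fin n → ℂ))
        ∈ Cl n C S := by
      rw [add_comm]
      exact hp₀mem
    have hx₀k : nf (α • (Pi.single k 1 : Fin n → ℂ) + β • (Pi.single l 1 : Fin n → ℂ))
        ≠ nf (Pi.single k 1 : Fin n → ℂ) := by
      intro h
      obtain ⟨c, _, h1⟩ := (nf_eq_nf_iff _ _).mp h.symm
      have := congrFun h1 l
      rw [hp₀l] at this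
      simp [Ne.symm hkl] at this
      exact hβ this
    have hx₀l : nf (α • (Pi.single k 1 : Fin n → ℂ) + β • (Pi.single l 1 : Fin n → ℂ))
        ≠ nf (Pi.single l 1 : Fin n → ℂ) := by
      intro h
      obtain ⟨c, _, h1⟩ := (nf_eq_nf_iff _ _).mp h.symm
      have := congrFun h1 k
      rw [hp₀k] at this
      simp [hkl] at this
      exact hα this
    have hlk : nf (Pi.single l 1 : Fin n → ℂ) ≠ nf (Pi.single k 1 : Fin n → ℂ) := by
      intro h
      obtain ⟨c, _, h1⟩ := (nf_eq_nf_iff _ _).mp h
      have := congrFun h1 k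
      simp [hkl] at this
    have hfk : nf (res (S.erase k)
        (nf (α • (Pi.single k 1 : Fin n → ℂ) + β • (Pi.single l 1 : Fin n → ℂ))))
        = nf (res (S.erase k) (nf (Pi.single l 1 : Fin n → ℂ))) := by
      rw [nf_res_nf, nf_res_nf, res_add, res_smul, res_smul, res_erase_single_self, smul_zero,
        zero_add, nf_smul hβ]
    have hfl : nf (res (S.erase l)
        (nf (α • (Pi.single k 1 : Fin n → ℂ) + β • (Pi.single l 1 : Fin n → ℂ))))
        = nf (res (S.erase l) (nf (Pi.single k 1 : Fin n → ℂ))) := by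
      rw [nf_res_nf, nf_res_nf, res_add, res_smul, res_smul, res_erase_single_self, smul_zero,
        add_zero, nf_smul hα]
    -- the arithmetic of one step
    have harith : ∀ (z : Fin n), z ∈ S →
        (Cl n C (S.erase z)).card + 3 ≤ (Cl n C S).card →
        (Cl n C (S.erase z)).card + 2 + rho n S ≤ (Cl n C S).card + rho n (S.erase z) →
        3 * S.card + rho n S ≤ (Cl n C S).card + (rho n S).primeFactorsList.length + 3 := by
      intro z hz h3 hρ
      have hcard : (S.erase z).card = m + 2 := by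
        rw [Finset.card_erase_of_mem hz, hS]
        rfl
      have h2 := ih (S.erase z) hcard
      rw [hcard] at h2
      rw [hS]
      by_cases he : rho n (S.erase z) = rho n S
      · rw [he] at h2
        omega
      · have h5 := omega_lt_of_dvd _ _ (rho_dvd n S z) (rho_ne_zero n S) he
        omega
    rcases merge_dichotomy n C S k hk _ _ hp₀mem (single_mem_Cl n C S l hl) hx₀k hlk hx₀l hfk
      with h | hk'
    · exact harith k hk h
        (step_rho n C out hC S k l t hk hl ht hkl htk htl α β hα hβ hp₀mem)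
    · rcases merge_dichotomy n C S l hl _ _ hp₀mem (single_mem_Cl n C S k hk) hx₀l
        (Ne.symm hlk) hx₀k hfl with h | hl'
      · exact harith l hl h
          (step_rho n C out hC S l k t hl hk ht (Ne.symm hkl) htl htk β α hβ hα hp₀mem')
      · exfalso
        have hJ := JJ_all n C S k l hk hl hkl α β hk' hl'
        have key : ∀ r, vec n C r k ≠ 0 → vec n C r l ≠ 0 →
            JJ k l α β (res S (vec n C r)) → vec n C r k * β = vec n C r l * α := by
          rintro r h1 h2 (⟨c, h⟩ | ⟨c, h⟩ | h)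
          · exfalso
            have := congrFun h l
            simp [res_apply, hl, Ne.symm hkl] at this
            exact h2 this
          · exfalso
            have := congrFun h k
            simp [res_apply, hk, hkl] at this
            exact h1 this
          · simpa [res_apply, hk, hl] using h
        have e1 := key p (hfull k).1 (hfull l).1 (hJ p)
        have e2 := key q (hfull k).2 (hfull l).2 (hJ q)
        apply hratio k l hkl
        apply mul_left_cancel₀ hα
        linear_combination (vec n C q k) * e1 - (vec n C p k) * e2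

/-- At least `3 n - Ω(n) - 3` addition and subtraction gates. -/
theorem addsub_count_bound3 (n : ℕ) (hn : 2 ≤ n) (C : List Gate) (out : Fin n → ℕ)
    (hC : ∀ x : Fin n → ℂ, ∀ j : Fin n, (eval C x).getD (out j) 0
        = ∑ k : Fin n, Complex.exp (2 * Real.pi * Complex.I / n) ^ ((j : ℕ) * (k : ℕ)) * x k) :
    3 * n ≤ C.countP Gate.isAddSub + n.primeFactorsList.length + 3 := by
  have : NeZero n := ⟨by omega⟩
  have h1 := class_bound4 n hn C out hC (n - 2) Finset.univ (by simp; omega)
  have h2 := card_Cl_le n C Finset.univ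
  rw [rho_univ n hn] at h1
  simp only [Finset.card_univ, Fintype.card_fin] at h1
  omega

/-- Every linear circuit computing the Fourier matrix `F_n` has at least
`4 n - d(n) - Ω(n) - 3` gates. -/
theorem gate_count_bound3 (n : ℕ) (hn : 2 ≤ n) (C : List Gate) (out : Fin n → ℕ)
    (hC : ∀ x : Fin n → ℂ, ∀ j : Fin n, (eval C x).getD (out j) 0
        = ∑ k : Fin n, Complex.exp (2 * Real.pi * Complex.I / n) ^ ((j : ℕ) * (k : ℕ)) * x k) :
    4 * n ≤ C.length + (Nat.divisors n).card + n.primeFactorsList.length + 3 := by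
  have h1 := smul_count_bound n (by omega) C out hC
  have h2 := addsub_count_bound3 n hn C out hC
  have h3 : C.length = C.countP Gate.isSmul + C.countP Gate.isAddSub := by
    rw [List.length_eq_countP_add_countP Gate.isSmul]
    congr 1
    apply List.countP_congr
    intro g _
    cases g <;> simp [Gate.isSmul, Gate.isAddSub]
  omega

end Vale.Agent.Lib.P344
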